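import Mathlib
import Vale.Agent.KK.PF.Defs
import Vale.Agent.Lib.P064.helper32.ConjInj

/-!
# P064, job PF-4: copies of the graph of a function with cycles, counted through a cut

The copies in `K_n` of the graph of `r : Fin n → Option (Fin n)` are counted through the
function `r'` obtained from `r` by removing the values on a set `D` of points, each of which is
reached again from its `r`-value by iterating `r'`.
-/

namespace Vale.Agent.Lib.P064.PF

open Finset SimpleGraph Vale.Agent.KK.PF Vale.Agent.Lib.P064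

/-- The inequality between the geometric and the arithmetic mean, for natural numbers. -/
theorem cc_amgm {ι : Type*} (P : Finset ι) (a : ι → ℕ) :
    (∏ i ∈ P, a i) * P.card ^ P.card ≤ (∑ i ∈ P, a i) ^ P.card := by
  rcases P.eq_empty_or_nonempty with rfl | hne
  · simp
  have hs : 0 < P.card := card_pos.mpr hne
  have hsR : (0 : ℝ) < P.card := by exact_mod_cast hs
  have key := Real.geom_mean_le_arith_mean_weighted P (fun _ => (P.card : ℝ)⁻¹)
    (fun i => (a i : ℝ)) (fun i _ => le_of_lt (inv_pos.mpr hsR))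
    (by rw [sum_const, nsmul_eq_mul, mul_inv_cancel₀ hsR.ne']) (fun i _ => Nat.cast_nonneg _)
  have h1 : (∏ i ∈ P, (a i : ℝ) ^ ((P.card : ℝ)⁻¹)) ^ P.card = ∏ i ∈ P, (a i : ℝ) := by
    rw [← prod_pow]
    apply prod_congr rfl
    intro i _
    exact Real.rpow_inv_natCast_pow (Nat.cast_nonneg _) hs.ne'
  have h2 : (∏ i ∈ P, (a i : ℝ)) ≤ (∑ i ∈ P, (P.card : ℝ)⁻¹ * a i) ^ P.card := by
    rw [← h1]
    exact pow_le_pow_left₀ (prod_nonneg (fun i _ => Real.rpow_nonneg (Nat.cast_nonneg _) _)) key _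
  have h3 : (∑ i ∈ P, (P.card : ℝ)⁻¹ * a i) ^ P.card * (P.card : ℝ) ^ P.card
      = (∑ i ∈ P, (a i : ℝ)) ^ P.card := by
    rw [← mul_pow, ← mul_sum]
    congr 1
    field_simp
  have h4 : ((∏ i ∈ P, a i : ℕ) : ℝ) * (P.card : ℝ) ^ P.card
      ≤ ((∑ i ∈ P, a i : ℕ) : ℝ) ^ P.card := by
    push_cast
    rw [← h3]
    exact mul_le_mul_of_nonneg_right h2 (pow_nonneg hsR.le _)
  exact_mod_cast h4

/-- Every copy of `U` in the complete graph on `Fin n` is the image of `U` under a permutation
of the vertices. -/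
theorem cc_exists_perm {n : ℕ} (U : SimpleGraph (Fin n))
    (S : (⊤ : SimpleGraph (Fin n)).Subgraph) (hS : Nonempty (U ≃g S.coe)) :
    ∃ σ : Fin n ≃ Fin n, (∀ a b, S.Adj a b ↔ U.Adj (σ.symm a) (σ.symm b)) ∧
      S.verts = Set.univ := by
  classical
  obtain ⟨f⟩ := hS
  have hinj : Function.Injective (fun x => ((f x : S.verts) : Fin n)) := by
    intro x y h
    exact f.injective (Subtype.ext h)
  refine ⟨Equiv.ofBijective _ ⟨hinj, Finite.injective_iff_surjective.1 hinj⟩, ?_, ?_⟩
  · intro a b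
    obtain ⟨x, rfl⟩ := (Finite.injective_iff_surjective.1 hinj) a
    obtain ⟨y, rfl⟩ := (Finite.injective_iff_surjective.1 hinj) b
    have e1 : (Equiv.ofBijective _ ⟨hinj, Finite.injective_iff_surjective.1 hinj⟩).symm
        ((f x : S.verts) : Fin n) = x := by
      apply (Equiv.ofBijective _ ⟨hinj, Finite.injective_iff_surjective.1 hinj⟩).injective
      rw [Equiv.apply_symm_apply]
      rfl
    have e2 : (Equiv.ofBijective _ ⟨hinj, Finite.injective_iff_surjective.1 hinj⟩).symm
        ((f y : S.verts) : Fin n) = y := by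
      apply (Equiv.ofBijective _ ⟨hinj, Finite.injective_iff_surjective.1 hinj⟩).injective
      rw [Equiv.apply_symm_apply]
      rfl
    simp only []
    rw [e1, e2]
    have h3 : S.coe.Adj (f x) (f y) ↔ U.Adj x y := f.map_rel_iff
    exact h3
  · exact (set_fintype_card_eq_univ_iff _).1 (Fintype.card_congr f.toEquiv.symm)

/-- The roots with at least one child. -/
def ccPR {n : ℕ} (g : Fin n → Option (Fin n)) : Finset (Fin n) :=
  univ.filter (fun y => g y = none ∧ ∃ x, g x = some y)

open Classical in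
/-- The points other than `ρ` that reach `ρ` under iteration of the total extension. -/
noncomputable def ccA {n : ℕ} (g : Fin n → Option (Fin n)) (ρ : Fin n) : Finset (Fin n) :=
  univ.filter (fun z => z ≠ ρ ∧ ∃ k, (tot g)^[k] z = ρ)

open Classical in
/-- The candidates for a function whose cut is `g`: outside the roots with children it agrees
with `g`, and such a root is sent to a point that reaches it. -/
noncomputable def ccFib {n : ℕ} (g : Fin n → Option (Fin n)) :
    Finset (Fin n → Option (Fin n)) :=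
  Fintype.piFinset (fun v => if v ∈ ccPR g then (ccA g v).image some else {g v})

theorem cc_mem_A {n : ℕ} (g : Fin n → Option (Fin n)) (ρ z : Fin n) :
    z ∈ ccA g ρ ↔ z ≠ ρ ∧ ∃ k, (tot g)^[k] z = ρ := by
  classical
  unfold ccA
  rw [mem_filter]
  exact and_iff_right (mem_univ _)

theorem cc_mem_PR {n : ℕ} (g : Fin n → Option (Fin n)) (y : Fin n) :
    y ∈ ccPR g ↔ g y = none ∧ ∃ x, g x = some y := by
  unfold ccPR
  rw [mem_filter]
  exact and_iff_right (mem_univ _)

theorem cc_tot_none {n : ℕ} (g : Fin n → Option (Fin n)) (v : Fin n) (h : g v = none) :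
    tot g v = v := by
  unfold tot
  rw [h]
  rfl

theorem cc_card_fib {n : ℕ} (g : Fin n → Option (Fin n)) :
    (ccFib g).card = ∏ v ∈ ccPR g, (ccA g v).card := by
  classical
  unfold ccFib
  rw [Fintype.card_piFinset]
  have h1 : ∀ v ∈ (univ : Finset (Fin n)),
      (if v ∈ ccPR g then (ccA g v).image some else {g v}).card
        = if v ∈ ccPR g then (ccA g v).card else 1 := by
    intro v _
    by_cases hv : v ∈ ccPR g
    · rw [if_pos hv, if_pos hv, card_image_of_injective _ (Option.some_injective _)]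
    · rw [if_neg hv, if_neg hv, card_singleton]
  rw [prod_congr rfl h1, ← prod_filter]
  congr 1
  ext v
  rw [mem_filter]
  exact and_iff_right (mem_univ _)

theorem cc_fib_bound {n : ℕ} (g : Fin n → Option (Fin n)) :
    (ccFib g).card * (ccPR g).card ^ (ccPR g).card
      ≤ (univ.filter (fun x => g x ≠ none)).card ^ (ccPR g).card := by
  classical
  rw [cc_card_fib]
  refine (cc_amgm (ccPR g) (fun v => (ccA g v).card)).trans ?_
  apply Nat.pow_le_pow_left
  have hfix : ∀ ρ ∈ ccPR g, tot g ρ = ρ := by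
    intro ρ hρ
    exact cc_tot_none g ρ ((cc_mem_PR g ρ).mp hρ).1
  have hreach : ∀ ρ ∈ ccPR g, ∀ ρ' ∈ ccPR g, ∀ z k d, (tot g)^[k] z = ρ →
      (tot g)^[k + d] z = ρ' → ρ = ρ' := by
    intro ρ hρ ρ' _ z k d hk hk'
    rw [Nat.add_comm, Function.iterate_add_apply, hk, Function.iterate_fixed (hfix ρ hρ)] at hk'
    exact hk'
  have hdisj : ((ccPR g : Finset (Fin n)) : Set (Fin n)).PairwiseDisjoint (ccA g) := by
    intro ρ hρ ρ' hρ' hne
    rw [mem_coe] at hρ hρ'
    show Disjoint (ccA g ρ) (ccA g ρ')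
    rw [Finset.disjoint_left]
    intro z hz hz'
    rw [cc_mem_A] at hz hz'
    obtain ⟨_, k, hk⟩ := hz
    obtain ⟨_, k', hk'⟩ := hz'
    rcases Nat.le_total k k' with hle | hle
    · obtain ⟨d, rfl⟩ := Nat.exists_eq_add_of_le hle
      exact hne (hreach ρ hρ ρ' hρ' z k d hk hk')
    · obtain ⟨d, rfl⟩ := Nat.exists_eq_add_of_le hle
      exact hne (hreach ρ' hρ' ρ hρ z k' d hk' hk).symm
  rw [← card_biUnion hdisj]
  apply card_le_card
  intro z hz
  rw [mem_biUnion] at hz
  obtain ⟨ρ, _, hz⟩ := hz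
  rw [cc_mem_A] at hz
  obtain ⟨hne, k, hk⟩ := hz
  rw [mem_filter]
  refine ⟨mem_univ _, fun h0 => hne ?_⟩
  rw [← hk, Function.iterate_fixed (cc_tot_none g z h0)]

theorem cc_tot_conj {n : ℕ} (σ : Fin n ≃ Fin n) (p : Fin n → Option (Fin n)) (x : Fin n) :
    tot (conjPar σ p) (σ x) = σ (tot p x) := by
  unfold tot
  rw [conjPar_apply]
  cases p x with
  | none => rfl
  | some z => rfl

theorem cc_iter_conj {n : ℕ} (σ : Fin n ≃ Fin n) (p : Fin n → Option (Fin n)) (k : ℕ) :
    ∀ x : Fin n, (tot (conjPar σ p))^[k] (σ x) = σ ((tot p)^[k] x) := by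
  induction k with
  | zero =>
    intro x
    rfl
  | succ k ih =>
    intro x
    rw [Function.iterate_succ_apply, cc_tot_conj, ih, ← Function.iterate_succ_apply]

theorem cc_mem_PR_conj {n : ℕ} (σ : Fin n ≃ Fin n) (p : Fin n → Option (Fin n)) (y : Fin n) :
    σ y ∈ ccPR (conjPar σ p) ↔ y ∈ ccPR p := by
  rw [cc_mem_PR, cc_mem_PR, conjPar_eq_none]
  constructor
  · rintro ⟨h1, x, hx⟩
    refine ⟨h1, σ.symm x, ?_⟩
    rw [← conjPar_eq_some σ p, σ.apply_symm_apply]
    exact hx
  · rintro ⟨h1, x, hx⟩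
    exact ⟨h1, σ x, (conjPar_eq_some σ p x y).2 hx⟩

theorem copyCount_cycles_le {n : ℕ} (r r' : Fin n → Option (Fin n)) (D : Finset (Fin n))
    (hr' : ∀ v, r' v = if v ∈ D then none else r v)
    (hclose : ∀ y ∈ D, ∃ z k, r y = some z ∧ z ≠ y ∧ (tot r')^[k] z = y)
    (hchild : ∀ y ∈ D, ∃ x, r' x = some y)
    (M' Φ' : ℕ)
    (hM : (univ.filter (fun x => r' x ≠ none)).card = M')
    (hm : (univ.filter (fun y => r' y = none ∧ ∃ x, r' x = some y)).card = D.card)
    (hΦ : ∏ y, ((univ.filter (fun x => r' x = some y)).card.factorial) = Φ') :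
    (⊤ : SimpleGraph (Fin n)).copyCount (SimpleGraph.fromRel (fun x y => r x = some y)) *
        D.card ^ D.card ≤
      {g : Fin n → Option (Fin n) |
        (univ.filter (fun x => g x ≠ none)).card = M' ∧
        (univ.filter (fun y => g y = none ∧ ∃ x, g x = some y)).card = D.card ∧
        ∏ y, ((univ.filter (fun x => g x = some y)).card.factorial) = Φ'}.ncard * M' ^ D.card := by
  set U : SimpleGraph (Fin n) := SimpleGraph.fromRel (fun x y => r x = some y) with hU
  set G : Set (Fin n → Option (Fin n)) := {g : Fin n → Option (Fin n) |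
        (univ.filter (fun x => g x ≠ none)).card = M' ∧
        (univ.filter (fun y => g y = none ∧ ∃ x, g x = some y)).card = D.card ∧
        ∏ y, ((univ.filter (fun x => g x = some y)).card.factorial) = Φ'} with hG
  have hGmem : ∀ g, g ∈ G ↔ ((univ.filter (fun x => g x ≠ none)).card = M' ∧
        (ccPR g).card = D.card ∧
        ∏ y, ((univ.filter (fun x => g x = some y)).card.factorial) = Φ') := fun g => Iff.rfl
  have hmem0 : ∀ σ : Fin n ≃ Fin n, conjPar σ r' ∈ G := by
    intro σ
    have h := conjPar_mem_class σ r'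
    exact ⟨h.1.trans hM, h.2.1.trans hm, h.2.2.trans hΦ⟩
  clear_value G
  classical
  -- the cut points are exactly the roots of `r'` with children
  have hD : ccPR r' = D := by
    symm
    apply eq_of_subset_of_card_le
    · intro y hy
      rw [cc_mem_PR]
      refine ⟨?_, hchild y hy⟩
      rw [hr', if_pos hy]
    · exact le_of_eq hm
  let Gf : Finset (Fin n → Option (Fin n)) := univ.filter (fun g => g ∈ G)
  have hGf : G.ncard = Gf.card := by
    rw [← Set.ncard_coe_finset Gf]
    congr 1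
    ext g
    rw [mem_coe, mem_filter]
    exact (and_iff_right (mem_univ _)).symm
  have hfib : ∀ g ∈ Gf, (ccFib g).card * D.card ^ D.card ≤ M' ^ D.card := by
    intro g hg
    have hg' : g ∈ G := (mem_filter.mp hg).2
    rw [hGmem] at hg'
    obtain ⟨h1, h2, _⟩ := hg'
    have h3 := cc_fib_bound g
    rw [h2, h1] at h3
    exact h3
  rw [copyCount_eq_natCard_subgraph]
  have hσ := fun S : {S : (⊤ : SimpleGraph (Fin n)).Subgraph // Nonempty (U ≃g S.coe)} =>
    cc_exists_perm U S.1 S.2
  choose σ hσ using hσ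
  have hinj : Function.Injective
      (fun S : {S : (⊤ : SimpleGraph (Fin n)).Subgraph // Nonempty (U ≃g S.coe)} =>
        conjPar (σ S) r) := by
    intro S S' h
    have h1 : conjPar (σ S) r = conjPar (σ S') r := h
    apply Subtype.ext
    apply Subgraph.ext
    · rw [(hσ S).2, (hσ S').2]
    · ext a b
      rw [(hσ S).1, (hσ S').1, hU, adj_iff_conjPar, adj_iff_conjPar, h1]
  have hmem : ∀ S : {S : (⊤ : SimpleGraph (Fin n)).Subgraph // Nonempty (U ≃g S.coe)},
      conjPar (σ S) r ∈ Gf.biUnion ccFib := by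
    intro S
    rw [mem_biUnion]
    refine ⟨conjPar (σ S) r', mem_filter.mpr ⟨mem_univ _, hmem0 (σ S)⟩, ?_⟩
    unfold ccFib
    rw [Fintype.mem_piFinset]
    intro v
    obtain ⟨y, rfl⟩ := (σ S).surjective v
    by_cases hy : y ∈ D
    · have hv : σ S y ∈ ccPR (conjPar (σ S) r') := by
        rw [cc_mem_PR_conj, hD]
        exact hy
      rw [if_pos hv, mem_image]
      obtain ⟨z, k, hz1, hz2, hz3⟩ := hclose y hy
      refine ⟨σ S z, ?_, ?_⟩
      · rw [cc_mem_A]
        refine ⟨fun h => hz2 ((σ S).injective h), k, ?_⟩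
        rw [cc_iter_conj, hz3]
      · rw [conjPar_apply, hz1]
        rfl
    · have hv : σ S y ∉ ccPR (conjPar (σ S) r') := by
        rw [cc_mem_PR_conj, hD]
        exact hy
      rw [if_neg hv, mem_singleton, conjPar_apply, conjPar_apply, hr', if_neg hy]
  have hcount : Nat.card {S : (⊤ : SimpleGraph (Fin n)).Subgraph // Nonempty (U ≃g S.coe)}
      ≤ (Gf.biUnion ccFib).card := by
    have h1 : Nat.card {S : (⊤ : SimpleGraph (Fin n)).Subgraph // Nonempty (U ≃g S.coe)}
        ≤ Nat.card ↥(Gf.biUnion ccFib) :=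
      Nat.card_le_card_of_injective (fun S => ⟨conjPar (σ S) r, hmem S⟩)
        (fun S S' h => hinj (congrArg Subtype.val h))
    rw [Nat.card_eq_finsetCard] at h1
    exact h1
  calc Nat.card {S : (⊤ : SimpleGraph (Fin n)).Subgraph // Nonempty (U ≃g S.coe)}
        * D.card ^ D.card
      ≤ (Gf.biUnion ccFib).card * D.card ^ D.card := Nat.mul_le_mul_right _ hcount
    _ ≤ (∑ g ∈ Gf, (ccFib g).card) * D.card ^ D.card :=
        Nat.mul_le_mul_right _ card_biUnion_le
    _ = ∑ g ∈ Gf, (ccFib g).card * D.card ^ D.card := sum_mul _ _ _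
    _ ≤ ∑ g ∈ Gf, M' ^ D.card := sum_le_sum hfib
    _ = Gf.card * M' ^ D.card := by rw [sum_const, smul_eq_mul]
    _ = G.ncard * M' ^ D.card := by rw [hGf]

end Vale.Agent.Lib.P064.PF
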