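import Mathlib
import Vale.Agent.KK.Hyp
import Vale.Agent.KK.PF.Defs

/-!
# Graphs of partial functions: acyclicity from a depth function, monotonicity of the
expectation hypothesis, and the number of edges
-/

namespace Vale.Agent.Lib.P064.PF

open Finset SimpleGraph Vale.Agent.KK Vale.Agent.KK.PF

/-- The graph of a partial function with a depth function (the depth drops by exactly one along
the function) has no cycle. -/
theorem isAcyclic_fromRel_of_depth {V : Type*} (p : V → Option V) (d : V → ℕ)
    (hd : ∀ u v, p u = some v → d u = d v + 1) :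
    (SimpleGraph.fromRel (fun x y => p x = some y)).IsAcyclic := by
  classical
  intro v c hc
  -- a vertex of maximal depth on the cycle
  have hne : c.support ≠ [] := by simp
  obtain ⟨u, hu, humax⟩ : ∃ u ∈ c.support, ∀ w ∈ c.support, d w ≤ d u := by
    have hfin : (c.support.toFinset).Nonempty := by
      refine ⟨v, ?_⟩
      simp
    obtain ⟨u, hu, humax⟩ := Finset.exists_max_image c.support.toFinset d hfin
    refine ⟨u, List.mem_toFinset.1 hu, fun w hw => humax w (List.mem_toFinset.2 hw)⟩
  -- rotate the cycle so that it starts at `u`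
  set c' := c.rotate u hu with hc'
  have hcyc : c'.IsCycle := hc.rotate hu
  have hnil : ¬ c'.Nil := hcyc.not_nil
  have hmax' : ∀ w ∈ c'.support, d w ≤ d u := by
    intro w hw
    exact humax w ((c.mem_support_rotate_iff u hu).1 hw)
  have hkey : ∀ w, (SimpleGraph.fromRel (fun x y => p x = some y)).Adj u w → d w ≤ d u →
      p u = some w := by
    intro w hadj hle
    rw [SimpleGraph.fromRel_adj] at hadj
    rcases hadj.2 with h | h
    · exact h
    · have := hd w u h
      omega
  have h1 : p u = some c'.snd :=
    hkey _ (c'.adj_snd hnil) (hmax' _ (c'.getVert_mem_support 1))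
  have h2 : p u = some c'.penultimate :=
    hkey _ (c'.adj_penultimate hnil).symm (hmax' _ (c'.getVert_mem_support _))
  have h3 : c'.snd = c'.penultimate := Option.some.inj (h1.symm.trans h2)
  exact hcyc.snd_ne_penultimate h3

/-- The expectation hypothesis passes to subgraphs of the host. -/
theorem subgraphsExpected_mono {n : ℕ} {H₁ H₂ : SimpleGraph (Fin n)} {q : ℝ} (hle : H₁ ≤ H₂)
    (h : SubgraphsExpected n H₂ q) : SubgraphsExpected n H₁ q := by
  intro H'
  exact h
    { verts := H'.verts
      Adj := H'.Adj
      adj_sub := fun hab => hle (H'.adj_sub hab)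
      edge_vert := fun hab => H'.edge_vert hab
      symm := H'.symm }

/-- The graph of a partial function without fixed points and without 2-cycles has exactly as
many edges as the function has values. -/
theorem ncard_edgeSet_fromRel_of_no2 {V : Type*} [Fintype V] [DecidableEq V] (p : V → Option V)
    (h1 : ∀ x, p x ≠ some x) (h2 : ∀ x y, p x = some y → p y ≠ some x) :
    (SimpleGraph.fromRel (fun x y => p x = some y)).edgeSet.ncard =
      (univ.filter (fun x => p x ≠ none)).card := by
  classical
  set f : V → Sym2 V := fun x => (p x).elim s(x, x) (fun y => s(x, y)) with hf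
  have hne : ∀ x y, p x = some y → x ≠ y := by
    intro x y h hxy
    subst hxy
    exact h1 x h
  have hset : (SimpleGraph.fromRel (fun x y => p x = some y)).edgeSet =
      f '' ((Finset.univ.filter (fun x => p x ≠ none) : Finset V) : Set V) := by
    ext e
    induction e using Sym2.ind with
    | _ a b =>
      rw [mem_edgeSet, fromRel_adj]
      simp only [Set.mem_image, Finset.coe_filter, Finset.mem_univ, true_and, Set.mem_ofPred_eq]
      constructor
      · rintro ⟨_, h | h⟩
        · exact ⟨a, by simp [h], by simp [hf, h]⟩
        · exact ⟨b, by simp [h], by simp [hf, h, Sym2.eq_swap]⟩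
      · rintro ⟨x, hx, hfx⟩
        obtain ⟨y, hy⟩ := Option.ne_none_iff_exists'.mp hx
        simp only [hf, hy, Option.elim_some] at hfx
        rw [Sym2.eq_iff] at hfx
        rcases hfx with ⟨rfl, rfl⟩ | ⟨rfl, rfl⟩
        · exact ⟨hne _ _ hy, Or.inl hy⟩
        · exact ⟨(hne _ _ hy).symm, Or.inr hy⟩
  have hinj : Set.InjOn f ((Finset.univ.filter (fun x => p x ≠ none) : Finset V) : Set V) := by
    intro x hx x' hx' hxx'
    simp only [Finset.coe_filter, Finset.mem_univ, true_and, Set.mem_ofPred_eq] at hx hx'
    obtain ⟨y, hy⟩ := Option.ne_none_iff_exists'.mp hx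
    obtain ⟨y', hy'⟩ := Option.ne_none_iff_exists'.mp hx'
    simp only [hf, hy, hy', Option.elim_some] at hxx'
    rw [Sym2.eq_iff] at hxx'
    rcases hxx' with ⟨h, _⟩ | ⟨h3, h4⟩
    · exact h
    · exfalso
      subst h3 h4
      exact h2 _ _ hy hy'
  rw [hset, Set.InjOn.ncard_image hinj, Set.ncard_coe_finset]

end Vale.Agent.Lib.P064.PF
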