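import Vale.Agent.KK.PF.Defs
import Vale.Agent.KK.FH.Freq
import Vale.Agent.Lib.P064.pf.CycleCopies
import Vale.Agent.Lib.P064.pf.FunGraph

/-!
# A class of cycles of the host carrying heavy hanging patterns is small
-/

namespace Vale.Agent.Lib.P064.PF

open Finset SimpleGraph Vale.Agent.KK Vale.Agent.KK.PF

section markers

variable {n : ℕ}

open Classical in
/-- The markers of an invariant set of periodic points: the least point of each orbit. -/
noncomputable def cyccMarkers (f : Fin n → Fin n) (g : ℕ) (C : Finset (Fin n)) :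
    Finset (Fin n) :=
  C.filter (fun w => ∀ i < g, w ≤ f^[i] w)

theorem cycc_markers_subset (f : Fin n → Fin n) (g : ℕ) (C : Finset (Fin n)) :
    cyccMarkers f g C ⊆ C := by
  classical
  exact filter_subset _ _

theorem cycc_iter_mem (f : Fin n → Fin n) (C : Finset (Fin n)) (hC2 : ∀ w ∈ C, f w ∈ C)
    (w : Fin n) (hw : w ∈ C) (i : ℕ) : f^[i] w ∈ C := by
  induction i with
  | zero => exact hw
  | succ i ih =>
    rw [Function.iterate_succ_apply']
    exact hC2 _ ih

theorem cycc_exists_marker (f : Fin n → Fin n) (g : ℕ) (hg : 1 ≤ g) (C : Finset (Fin n))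
    (hC1 : ∀ w ∈ C, Function.minimalPeriod f w = g) (hC2 : ∀ w ∈ C, f w ∈ C)
    (w : Fin n) (hw : w ∈ C) : ∃ i < g, f^[i] w ∈ cyccMarkers f g C := by
  classical
  obtain ⟨i0, hi0, hmin⟩ := Finset.exists_min_image (range g) (fun i => f^[i] w)
    ⟨0, mem_range.2 (by omega)⟩
  refine ⟨i0, mem_range.1 hi0, ?_⟩
  rw [cyccMarkers, mem_filter]
  refine ⟨cycc_iter_mem f C hC2 w hw i0, fun i _ => ?_⟩
  rw [← Function.iterate_add_apply]
  have h1 : f^[(i + i0) % g] w = f^[i + i0] w := by
    have := Function.iterate_mod_minimalPeriod_eq (f := f) (x := w) (n := i + i0)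
    rwa [hC1 w hw] at this
  rw [← h1]
  exact hmin _ (mem_range.2 (Nat.mod_lt _ (by omega)))

theorem cycc_marker_unique (f : Fin n → Fin n) (g : ℕ) (C : Finset (Fin n))
    (hC1 : ∀ w ∈ C, Function.minimalPeriod f w = g)
    (y : Fin n) (hy : y ∈ cyccMarkers f g C) (i : ℕ) (hi0 : 0 < i) (hig : i < g) :
    f^[i] y ∉ cyccMarkers f g C := by
  classical
  intro hy'
  rw [cyccMarkers, mem_filter] at hy hy'
  have h1 : y ≤ f^[i] y := hy.2 i hig
  have h2 : f^[i] y ≤ f^[g - i] (f^[i] y) := hy'.2 (g - i) (by omega)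
  have h3 : f^[g - i] (f^[i] y) = y := by
    rw [← Function.iterate_add_apply, Nat.sub_add_cancel hig.le]
    have := Function.iterate_minimalPeriod (f := f) (x := y)
    rwa [hC1 y hy.1] at this
  rw [h3] at h2
  have h4 : f^[i] y = y := le_antisymm h2 h1
  have h5 : Function.IsPeriodicPt f i y := h4
  have := h5.minimalPeriod_le hi0
  rw [hC1 y hy.1] at this
  omega

theorem cycc_iter_period (f : Fin n → Fin n) (g : ℕ) (C : Finset (Fin n))
    (hC1 : ∀ w ∈ C, Function.minimalPeriod f w = g) (w : Fin n) (hw : w ∈ C) :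
    f^[g] w = w := by
  have := Function.iterate_minimalPeriod (f := f) (x := w)
  rwa [hC1 w hw] at this

theorem cycc_orbit_injOn (f : Fin n → Fin n) (g : ℕ) (C : Finset (Fin n))
    (hC1 : ∀ w ∈ C, Function.minimalPeriod f w = g) (y : Fin n) (hy : y ∈ C) :
    Set.InjOn (fun i => f^[i] y) (range g : Finset ℕ) := by
  intro a ha b hb hab
  have h := Function.iterate_injOn_Iio_minimalPeriod (f := f) (x := y)
  rw [hC1 y hy] at h
  exact h (by simpa using ha) (by simpa using hb) hab

theorem cycc_decomp (f : Fin n → Fin n) (g : ℕ) (hg : 1 ≤ g) (C : Finset (Fin n))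
    (hC1 : ∀ w ∈ C, Function.minimalPeriod f w = g) (hC2 : ∀ w ∈ C, f w ∈ C) :
    C = (cyccMarkers f g C).biUnion (fun y => (range g).image (fun i => f^[i] y)) := by
  classical
  ext w
  rw [mem_biUnion]
  constructor
  · intro hw
    obtain ⟨i, hi, hiD⟩ := cycc_exists_marker f g hg C hC1 hC2 w hw
    refine ⟨f^[i] w, hiD, ?_⟩
    rw [mem_image]
    by_cases hi0 : i = 0
    · refine ⟨0, mem_range.2 (by omega), ?_⟩
      rw [hi0]
      rfl
    · refine ⟨g - i, mem_range.2 (by omega), ?_⟩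
      rw [← Function.iterate_add_apply, Nat.sub_add_cancel hi.le]
      exact cycc_iter_period f g C hC1 w hw
  · rintro ⟨y, hy, hw⟩
    rw [mem_image] at hw
    obtain ⟨i, -, rfl⟩ := hw
    exact cycc_iter_mem f C hC2 y (cycc_markers_subset f g C hy) i

theorem cycc_orbit_disjoint (f : Fin n → Fin n) (g : ℕ) (C : Finset (Fin n))
    (hC1 : ∀ w ∈ C, Function.minimalPeriod f w = g) :
    ∀ y ∈ cyccMarkers f g C, ∀ y' ∈ cyccMarkers f g C, y ≠ y' →
      Disjoint ((range g).image (fun i => f^[i] y)) ((range g).image (fun i => f^[i] y')) := by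
  classical
  intro y hy y' hy' hne
  rw [Finset.disjoint_left]
  intro x hx hx'
  rw [mem_image] at hx hx'
  obtain ⟨i, hi, rfl⟩ := hx
  obtain ⟨i', hi', hii⟩ := hx'
  rw [mem_range] at hi hi'
  have hyC := cycc_markers_subset f g C hy
  have hy'C := cycc_markers_subset f g C hy'
  -- `y' = f^[g - i' + i] y`
  have h1 : f^[g - i' + i] y = y' := by
    rw [Function.iterate_add_apply]
    show f^[g - i'] (f^[i] y) = y'
    rw [← hii, ← Function.iterate_add_apply, Nat.sub_add_cancel hi'.le]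
    exact cycc_iter_period f g C hC1 y' hy'C
  have h2 : f^[(g - i' + i) % g] y = y' := by
    have := Function.iterate_mod_minimalPeriod_eq (f := f) (x := y) (n := g - i' + i)
    rw [hC1 y hyC] at this
    rw [this, h1]
  by_cases h0 : (g - i' + i) % g = 0
  · rw [h0] at h2
    exact hne h2
  · have := cycc_marker_unique f g C hC1 y hy ((g - i' + i) % g) (by omega)
      (Nat.mod_lt _ (by omega))
    rw [h2] at this
    exact this hy'

theorem cycc_prod_eq {M : Type*} [CommMonoid M] (f : Fin n → Fin n) (g : ℕ) (hg : 1 ≤ g)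
    (C : Finset (Fin n)) (hC1 : ∀ w ∈ C, Function.minimalPeriod f w = g)
    (hC2 : ∀ w ∈ C, f w ∈ C) (φ : Fin n → M) :
    ∏ w ∈ C, φ w = ∏ y ∈ cyccMarkers f g C, ∏ i ∈ range g, φ (f^[i] y) := by
  classical
  conv_lhs => rw [cycc_decomp f g hg C hC1 hC2]
  rw [Finset.prod_biUnion (cycc_orbit_disjoint f g C hC1)]
  refine Finset.prod_congr rfl (fun y hy => ?_)
  rw [Finset.prod_image]
  exact cycc_orbit_injOn f g C hC1 y (cycc_markers_subset f g C hy)

theorem cycc_sum_eq {M : Type*} [AddCommMonoid M] (f : Fin n → Fin n) (g : ℕ) (hg : 1 ≤ g)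
    (C : Finset (Fin n)) (hC1 : ∀ w ∈ C, Function.minimalPeriod f w = g)
    (hC2 : ∀ w ∈ C, f w ∈ C) (φ : Fin n → M) :
    ∑ w ∈ C, φ w = ∑ y ∈ cyccMarkers f g C, ∑ i ∈ range g, φ (f^[i] y) := by
  classical
  conv_lhs => rw [cycc_decomp f g hg C hC1 hC2]
  rw [Finset.sum_biUnion (cycc_orbit_disjoint f g C hC1)]
  refine Finset.sum_congr rfl (fun y hy => ?_)
  rw [Finset.sum_image]
  exact cycc_orbit_injOn f g C hC1 y (cycc_markers_subset f g C hy)

theorem cycc_card_eq (f : Fin n → Fin n) (g : ℕ) (hg : 1 ≤ g)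
    (C : Finset (Fin n)) (hC1 : ∀ w ∈ C, Function.minimalPeriod f w = g)
    (hC2 : ∀ w ∈ C, f w ∈ C) : C.card = g * (cyccMarkers f g C).card := by
  rw [Finset.card_eq_sum_ones, cycc_sum_eq f g hg C hC1 hC2 (fun _ => 1)]
  simp [mul_comm]

end markers

section patterns

variable {V : Type*}

theorem cycc_par_ne_none (par : V → Option V) (E : V → Finset V)
    (hE1 : ∀ v, ∀ x ∈ E v, par x = some v ∨ ∃ y ∈ E v, par x = some y) (v x : V)
    (hx : x ∈ E v) : par x ≠ none := by
  intro h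
  rcases hE1 v x hx with h' | ⟨y, -, h'⟩
  · rw [h] at h'
    exact Option.some_ne_none _ h'.symm
  · rw [h] at h'
    exact Option.some_ne_none _ h'.symm

/-- Two patterns hanging at roots of `par` which share a vertex have the same root. -/
theorem cycc_root_unique (par : V → Option V) (d : V → ℕ)
    (hd : ∀ u v, par u = some v → d u = d v + 1) (E : V → Finset V)
    (hE1 : ∀ v, ∀ x ∈ E v, par x = some v ∨ ∃ y ∈ E v, par x = some y) :
    ∀ (m : ℕ) (x w w' : V), d x = m → par w = none → par w' = none → x ∈ E w → x ∈ E w' →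
      w = w' := by
  intro m
  induction m using Nat.strong_induction_on with
  | _ m ih =>
    intro x w w' hx hw hw' h1 h2
    rcases hE1 w x h1 with a | ⟨y, hy, a⟩
    · rcases hE1 w' x h2 with b | ⟨y', hy', b⟩
      · rw [a] at b
        exact Option.some.inj b
      · exfalso
        rw [a] at b
        have hwy : w = y' := Option.some.inj b
        exact cycc_par_ne_none par E hE1 w' y' hy' (hwy ▸ hw)
    · rcases hE1 w' x h2 with b | ⟨y', hy', b⟩
      · exfalso
        rw [a] at b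
        have hyw : y = w' := Option.some.inj b
        exact cycc_par_ne_none par E hE1 w y hy (hyw ▸ hw')
      · rw [a] at b
        have hyy : y = y' := Option.some.inj b
        have hdy := hd x y a
        exact ih (d y) (by omega) y w w' rfl hw hw' hy (hyy ▸ hy')

end patterns

/-- The combinatorial structure behind `cyc_class_le`: the functional graph `r` spanned by the
cycles of the class and their hanging patterns, and its cut `r'` at the markers. -/
theorem cycc_structure {n : ℕ} {H : SimpleGraph (Fin n)}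
    (p : Fin n → Option (Fin n)) (hpH : ∀ x y, p x = some y → H.Adj x y)
    (hp2 : ∀ x y, p x = some y → p y ≠ some x)
    (par : Fin n → Option (Fin n)) (hpar1 : ∀ v, PerPt p v → par v = none)
    (hpar2 : ∀ v, ¬ PerPt p v → par v = p v)
    (d : Fin n → ℕ) (hd : ∀ u v, par u = some v → d u = d v + 1)
    (E : Fin n → Finset (Fin n))
    (hE1 : ∀ v, ∀ x ∈ E v, par x = some v ∨ ∃ y ∈ E v, par x = some y)
    (g K j : ℕ) (hg : 1 ≤ g) (C : Finset (Fin n)) (hne : C.Nonempty)
    (hC1 : ∀ w ∈ C, p w ≠ none ∧ Function.minimalPeriod (tot p) w = g)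
    (hC2 : ∀ w ∈ C, tot p w ∈ C)
    (hCK : ∀ w ∈ C, ∑ i ∈ range g, (E ((tot p)^[i] w)).card = K)
    (hCj : ∀ w ∈ C, 2 ^ j ≤ ∏ i ∈ range g, patFac par E ((tot p)^[i] w)) :
    ∃ (s t : ℕ) (r r' : Fin n → Option (Fin n)) (D : Finset (Fin n)),
      1 ≤ s ∧ g + K = t + 1 ∧ 1 ≤ t ∧ C.card = g * s ∧ D.card = s ∧
      (∀ v, r' v = if v ∈ D then none else r v) ∧
      (∀ y ∈ D, ∃ z k, r y = some z ∧ z ≠ y ∧ (tot r')^[k] z = y) ∧
      (∀ y ∈ D, ∃ x, r' x = some y) ∧
      (univ.filter (fun x => r' x ≠ none)).card = s * t ∧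
      (univ.filter (fun y => r' y = none ∧ ∃ x, r' x = some y)).card = D.card ∧
      (2 ^ j) ^ s ≤ ∏ y, ((univ.filter (fun x => r' x = some y)).card.factorial) ∧
      SimpleGraph.fromRel (fun x y => r x = some y) ≤ H ∧
      (SimpleGraph.fromRel (fun x y => r x = some y)).edgeSet.ncard = s * t + s := by
  classical
  obtain ⟨f, hf⟩ : ∃ f : Fin n → Fin n, f = tot p := ⟨_, rfl⟩
  rw [← hf] at hC1 hC2 hCK hCj
  have hC1' : ∀ w ∈ C, Function.minimalPeriod f w = g := fun w hw => (hC1 w hw).2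
  have hpf : ∀ w ∈ C, p w = some (f w) := by
    intro w hw
    obtain ⟨y, hy⟩ := Option.ne_none_iff_exists'.1 (hC1 w hw).1
    rw [hf, tot, hy]
    rfl
  have hPer : ∀ w ∈ C, PerPt p w := by
    intro w hw
    refine ⟨(hC1 w hw).1, ?_⟩
    rw [← hf, ← Function.minimalPeriod_pos_iff_mem_periodicPts, hC1' w hw]
    omega
  have hparC : ∀ w ∈ C, par w = none := fun w hw => hpar1 w (hPer w hw)
  have hploop : ∀ x, p x ≠ some x := fun x hx => (hpH x x hx).ne rfl
  have hg2 : 2 ≤ g := by
    by_contra hlt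
    have hg1 : g = 1 := by omega
    obtain ⟨w, hw⟩ := hne
    have h1 : f w = w := by
      have := cycc_iter_period f g C hC1' w hw
      rw [hg1] at this
      exact this
    have := hpf w hw
    rw [h1] at this
    exact hploop w this
  obtain ⟨D, hD⟩ : ∃ D : Finset (Fin n), D = cyccMarkers f g C := ⟨_, rfl⟩
  have hDC : D ⊆ C := by
    rw [hD]
    exact cycc_markers_subset f g C
  have hCs : C.card = g * D.card := by
    rw [hD]
    exact cycc_card_eq f g hg C hC1' hC2
  have hs1 : 1 ≤ D.card := by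
    obtain ⟨w, hw⟩ := hne
    obtain ⟨i, -, hi⟩ := cycc_exists_marker f g hg C hC1' hC2 w hw
    rw [← hD] at hi
    exact Finset.card_pos.2 ⟨_, hi⟩
  -- pattern facts
  have hparE : ∀ v, ∀ x ∈ E v, par x ≠ none :=
    fun v x hx => cycc_par_ne_none par E hE1 v x hx
  have hpE : ∀ v, ∀ x ∈ E v, p x = par x := by
    intro v x hx
    have hnp : ¬ PerPt p x := fun hper => hparE v x hx (hpar1 x hper)
    exact (hpar2 x hnp).symm
  have hEC : ∀ w, ∀ x ∈ E w, x ∉ C := fun w x hx hxC => hparE w x hx (hparC x hxC)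
  have huniq : ∀ w ∈ C, ∀ w' ∈ C, ∀ x, x ∈ E w → x ∈ E w' → w = w' :=
    fun w hw w' hw' x hx hx' =>
      cycc_root_unique par d hd E hE1 (d x) x w w' rfl (hparC w hw) (hparC w' hw') hx hx'
  have hdisjE : ∀ w ∈ C, ∀ w' ∈ C, w ≠ w' → Disjoint (E w) (E w') := by
    intro w hw w' hw' hne'
    rw [Finset.disjoint_left]
    intro x hx hx'
    exact hne' (huniq w hw w' hw' x hx hx')
  have hdisjS : ∀ w ∈ C, ∀ w' ∈ C, w ≠ w' →
      Disjoint (insert w (E w)) (insert w' (E w')) := by
    intro w hw w' hw' hne'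
    rw [Finset.disjoint_left]
    intro x hx hx'
    rw [mem_insert] at hx hx'
    rcases hx with hx | hx
    · rcases hx' with hx' | hx'
      · exact hne' (hx.symm.trans hx')
      · exact hEC w' x hx' (hx ▸ hw)
    · rcases hx' with hx' | hx'
      · exact hEC w x hx (hx' ▸ hw')
      · exact hne' (huniq w hw w' hw' x hx hx')
  -- the vertex set
  obtain ⟨U, hU⟩ : ∃ U : Finset (Fin n), U = C.biUnion E := ⟨_, rfl⟩
  have hCU : Disjoint C U := by
    rw [Finset.disjoint_left]
    intro x hxC hxU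
    rw [hU] at hxU
    obtain ⟨w, -, hxw⟩ := mem_biUnion.1 hxU
    exact hEC w x hxw hxC
  have hUcard : U.card = D.card * K := by
    rw [hU, Finset.card_biUnion hdisjE, cycc_sum_eq f g hg C hC1' hC2 (fun w => (E w).card),
      ← hD, Finset.sum_congr rfl (fun y hy => hCK y (hDC hy)), Finset.sum_const, smul_eq_mul]
  obtain ⟨X, hX⟩ : ∃ X : Finset (Fin n), X = C ∪ U := ⟨_, rfl⟩
  have hXcard : X.card = g * D.card + D.card * K := by
    rw [hX, Finset.card_union_of_disjoint hCU, hCs, hUcard]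
  have hCX : C ⊆ X := by
    rw [hX]
    exact subset_union_left
  have hUX : U ⊆ X := by
    rw [hX]
    exact subset_union_right
  have hDX : D ⊆ X := hDC.trans hCX
  have hEX : ∀ w ∈ C, E w ⊆ X := by
    intro w hw x hx
    exact hUX (hU ▸ mem_biUnion.2 ⟨w, hw, hx⟩)
  have hED : ∀ w, ∀ x ∈ E w, x ∉ D := fun w x hx hxD => hEC w x hx (hDC hxD)
  have hXval : ∀ v ∈ X, ∃ y ∈ X, p v = some y := by
    intro v hv
    rw [hX, mem_union] at hv
    rcases hv with hv | hv
    · exact ⟨f v, hCX (hC2 v hv), hpf v hv⟩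
    · rw [hU] at hv
      obtain ⟨w, hw, hvw⟩ := mem_biUnion.1 hv
      rcases hE1 w v hvw with a | ⟨y, hy, a⟩
      · exact ⟨w, hCX hw, (hpE w v hvw).trans a⟩
      · exact ⟨y, hEX w hw hy, (hpE w v hvw).trans a⟩
  -- the functional graph and its cut
  obtain ⟨r, hr⟩ : ∃ r : Fin n → Option (Fin n), ∀ v, r v = if v ∈ X then p v else none :=
    ⟨_, fun _ => rfl⟩
  obtain ⟨r', hr'⟩ : ∃ r' : Fin n → Option (Fin n), ∀ v, r' v = if v ∈ D then none else r v :=
    ⟨_, fun _ => rfl⟩
  have hrX : ∀ v ∈ X, r v = p v := fun v hv => by rw [hr, if_pos hv]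
  have hrnX : ∀ v, v ∉ X → r v = none := fun v hv => by rw [hr, if_neg hv]
  have hrp : ∀ x y, r x = some y → p x = some y := by
    intro x y hxy
    by_cases hx : x ∈ X
    · rw [hrX x hx] at hxy
      exact hxy
    · rw [hrnX x hx] at hxy
      exact (Option.some_ne_none _ hxy.symm).elim
  have hr'D : ∀ v ∈ D, r' v = none := fun v hv => by rw [hr', if_pos hv]
  have hr'nD : ∀ v, v ∉ D → r' v = r v := fun v hv => by rw [hr', if_neg hv]
  have hF3 : ∀ x y, r' x = some y → x ∈ X ∧ x ∉ D ∧ p x = some y ∧ y ∈ X := by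
    intro x y hxy
    have hxD : x ∉ D := by
      intro hxD
      rw [hr'D x hxD] at hxy
      exact Option.some_ne_none _ hxy.symm
    rw [hr'nD x hxD] at hxy
    have hxX : x ∈ X := by
      by_contra hxX
      rw [hrnX x hxX] at hxy
      exact Option.some_ne_none _ hxy.symm
    rw [hrX x hxX] at hxy
    obtain ⟨y', hy', hxy'⟩ := hXval x hxX
    rw [hxy] at hxy'
    exact ⟨hxX, hxD, hxy, (Option.some.inj hxy') ▸ hy'⟩
  have hF4 : ∀ x y, x ∈ X → x ∉ D → p x = some y → r' x = some y := by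
    intro x y hxX hxD hxy
    rw [hr'nD x hxD, hrX x hxX, hxy]
  -- the predecessor of a marker
  have hpred : ∀ y ∈ D, f^[g - 1] y ∈ C ∧ f^[g - 1] y ∉ D ∧ p (f^[g - 1] y) = some y := by
    intro y hy
    have hyC := hDC hy
    have h1 : f^[g - 1] y ∈ C := cycc_iter_mem f C hC2 y hyC (g - 1)
    refine ⟨h1, ?_, ?_⟩
    · have := cycc_marker_unique f g C hC1' y (hD ▸ hy) (g - 1) (by omega) (by omega)
      rw [← hD] at this
      exact this
    · rw [hpf _ h1, ← Function.iterate_succ_apply' f (g - 1) y]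
      have hgg : (g - 1).succ = g := by omega
      rw [hgg, cycc_iter_period f g C hC1' y hyC]
  have hchild : ∀ y ∈ D, ∃ x, r' x = some y := by
    intro y hy
    obtain ⟨h1, h2, h3⟩ := hpred y hy
    exact ⟨f^[g - 1] y, hF4 _ _ (hCX h1) h2 h3⟩
  have hclose : ∀ y ∈ D, ∃ z k, r y = some z ∧ z ≠ y ∧ (tot r')^[k] z = y := by
    intro y hy
    have hyC := hDC hy
    refine ⟨f y, g - 1, ?_, ?_, ?_⟩
    · rw [hrX y (hCX hyC)]
      exact hpf y hyC
    · intro hfy
      have := hpf y hyC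
      rw [hfy] at this
      exact hploop y this
    · have hiter : ∀ i, i ≤ g - 1 → (tot r')^[i] (f y) = f^[i + 1] y := by
        intro i
        induction i with
        | zero => intro _; rfl
        | succ i ih =>
          intro hi
          rw [Function.iterate_succ_apply', ih (by omega)]
          have hmem : f^[i + 1] y ∈ C := cycc_iter_mem f C hC2 y hyC (i + 1)
          have hnD : f^[i + 1] y ∉ D := by
            have := cycc_marker_unique f g C hC1' y (hD ▸ hy) (i + 1) (by omega) (by omega)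
            rw [← hD] at this
            exact this
          have h1 : r' (f^[i + 1] y) = some (f (f^[i + 1] y)) :=
            hF4 _ _ (hCX hmem) hnD (hpf _ hmem)
          rw [tot, h1, Function.iterate_succ_apply' f (i + 1) y]
          rfl
      rw [hiter (g - 1) le_rfl]
      have hgg : g - 1 + 1 = g := by omega
      rw [hgg]
      exact cycc_iter_period f g C hC1' y hyC
  -- non-roots of `r'`
  have hnr' : univ.filter (fun x => r' x ≠ none) = X \ D := by
    ext x
    simp only [mem_filter, mem_univ, true_and, mem_sdiff]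
    constructor
    · intro hx
      obtain ⟨y, hy⟩ := Option.ne_none_iff_exists'.1 hx
      obtain ⟨h1, h2, -, -⟩ := hF3 x y hy
      exact ⟨h1, h2⟩
    · rintro ⟨hxX, hxD⟩
      obtain ⟨y, -, hy⟩ := hXval x hxX
      rw [hF4 x y hxX hxD hy]
      exact Option.some_ne_none _
  -- parent roots of `r'`
  have hpr' : univ.filter (fun y => r' y = none ∧ ∃ x, r' x = some y) = D := by
    ext y
    simp only [mem_filter, mem_univ, true_and]
    constructor
    · rintro ⟨hy, x, hx⟩
      obtain ⟨-, -, -, hyX⟩ := hF3 x y hx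
      by_contra hyD
      obtain ⟨y', -, hy'⟩ := hXval y hyX
      rw [hF4 y y' hyX hyD hy'] at hy
      exact Option.some_ne_none _ hy
    · intro hy
      exact ⟨hr'D y hy, hchild y hy⟩
  -- the graph
  have hUH : SimpleGraph.fromRel (fun x y => r x = some y) ≤ H := by
    intro x y hxy
    rw [SimpleGraph.fromRel_adj] at hxy
    rcases hxy.2 with h1 | h1
    · exact hpH _ _ (hrp _ _ h1)
    · exact (hpH _ _ (hrp _ _ h1)).symm
  have hnr : univ.filter (fun x => r x ≠ none) = X := by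
    ext x
    simp only [mem_filter, mem_univ, true_and]
    constructor
    · intro hx
      by_contra hxX
      exact hx (hrnX x hxX)
    · intro hx
      obtain ⟨y, -, hy⟩ := hXval x hx
      rw [hrX x hx, hy]
      exact Option.some_ne_none _
  have hedges : (SimpleGraph.fromRel (fun x y => r x = some y)).edgeSet.ncard = X.card := by
    rw [ncard_edgeSet_fromRel_of_no2 r (fun x hx => hploop x (hrp x x hx))
      (fun x y hxy hyx => hp2 x y (hrp x y hxy) (hrp y x hyx)), hnr]
  -- the weights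
  have hΦ : (2 ^ j) ^ D.card ≤ ∏ y, ((univ.filter (fun x => r' x = some y)).card.factorial) := by
    have h1 : (2 ^ j) ^ D.card ≤ ∏ w ∈ C, patFac par E w := by
      rw [cycc_prod_eq f g hg C hC1' hC2 (fun w => patFac par E w), ← hD, ← Finset.prod_const]
      exact Finset.prod_le_prod' (fun y hy => hCj y (hDC hy))
    have hstep : ∀ w ∈ C, patFac par E w ≤ ∏ y ∈ insert w (E w),
        ((univ.filter (fun x => r' x = some y)).card.factorial) := by
      intro w hw
      rw [patFac]
      refine Finset.prod_le_prod' (fun y _ => ?_)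
      refine Nat.factorial_le (Finset.card_le_card ?_)
      intro x hx
      rw [mem_filter] at hx ⊢
      refine ⟨mem_univ _, ?_⟩
      exact hF4 x y (hEX w hw hx.1) (hED w x hx.1) ((hpE w x hx.1).trans hx.2)
    have h2 : ∏ w ∈ C, patFac par E w ≤ ∏ w ∈ C, ∏ y ∈ insert w (E w),
        ((univ.filter (fun x => r' x = some y)).card.factorial) := Finset.prod_le_prod' hstep
    have h3 : ∏ w ∈ C, ∏ y ∈ insert w (E w),
        ((univ.filter (fun x => r' x = some y)).card.factorial)
        = ∏ y ∈ C.biUnion (fun w => insert w (E w)),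
          ((univ.filter (fun x => r' x = some y)).card.factorial) := by
      rw [Finset.prod_biUnion]
      intro w hw w' hw' hne'
      exact hdisjS w hw w' hw' hne'
    have h4 : ∏ y ∈ C.biUnion (fun w => insert w (E w)),
          ((univ.filter (fun x => r' x = some y)).card.factorial)
        ≤ ∏ y, ((univ.filter (fun x => r' x = some y)).card.factorial) := by
      refine Finset.prod_le_prod_of_subset_of_one_le' (subset_univ _) (fun y _ _ => ?_)
      exact Nat.succ_le_of_lt (Nat.factorial_pos _)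
    exact h1.trans (h2.trans (h3 ▸ h4))
  -- sizes
  obtain ⟨t, ht⟩ : ∃ t, g + K = t + 1 := ⟨g + K - 1, by omega⟩
  have ht1 : 1 ≤ t := by omega
  have hXst : X.card = D.card * t + D.card := by
    rw [hXcard]
    have : g * D.card + D.card * K = D.card * (g + K) := by ring
    rw [this, ht]
    ring
  have hM' : (univ.filter (fun x => r' x ≠ none)).card = D.card * t := by
    rw [hnr']
    have := Finset.card_sdiff_add_card_eq_card hDX
    omega
  refine ⟨D.card, t, r, r', D, hs1, ht, ht1, hCs, rfl, hr', hclose, hchild, hM', ?_, hΦ, hUH, ?_⟩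
  · rw [hpr']
  · rw [hedges, hXst]

/-- A class of cycles of the host (common length `g`, common total pattern size `K`) whose
hanging patterns have weight at least `2 ^ j` along each cycle is small. -/
theorem cyc_class_le {n : ℕ} {H : SimpleGraph (Fin n)} {q : ℝ} (hq : 0 ≤ q)
    (h : SubgraphsExpected n H q)
    (p : Fin n → Option (Fin n)) (hpH : ∀ x y, p x = some y → H.Adj x y)
    (hp2 : ∀ x y, p x = some y → p y ≠ some x)
    (par : Fin n → Option (Fin n)) (hpar1 : ∀ v, PerPt p v → par v = none)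
    (hpar2 : ∀ v, ¬ PerPt p v → par v = p v)
    (d : Fin n → ℕ) (hd : ∀ u v, par u = some v → d u = d v + 1)
    (E : Fin n → Finset (Fin n))
    (hE1 : ∀ v, ∀ x ∈ E v, par x = some v ∨ ∃ y ∈ E v, par x = some y)
    (hE2 : ∀ v, ∀ x ∈ E v, d v < d x ∧ d x ≤ d v + (E v).card)
    (g K j : ℕ) (hg : 1 ≤ g) (C : Finset (Fin n))
    (hC1 : ∀ w ∈ C, p w ≠ none ∧ Function.minimalPeriod (tot p) w = g)
    (hC2 : ∀ w ∈ C, tot p w ∈ C)
    (hCK : ∀ w ∈ C, ∑ i ∈ range g, (E ((tot p)^[i] w)).card = K)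
    (hCj : ∀ w ∈ C, 2 ^ j ≤ ∏ i ∈ range g, patFac par E ((tot p)^[i] w)) :
    (C.card : ℝ) * 2 ^ j ≤ g * (g + K) * (4 * Real.exp 1 * n * q) ^ (g + K) := by
  classical
  have _ := hE2
  rcases C.eq_empty_or_nonempty with rfl | hne
  · simp only [card_empty, Nat.cast_zero, zero_mul]
    positivity
  obtain ⟨s, t, r, r', D, hs1, ht, ht1, hCs, hDs, hr', hclose, hchild, hM', hm, hΦ, hUH,
    hedges⟩ := cycc_structure p hpH hp2 par hpar1 hpar2 d hd E hE1 g K j hg C hne hC1 hC2 hCK hCj
  have h1 := hyp_spanning h _ hUH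
  rw [hedges] at h1
  have hcc := copyCount_cycles_le r r' D hr' hclose hchild (s * t)
    (∏ y, ((univ.filter (fun x => r' x = some y)).card.factorial)) hM' hm rfl
  rw [hDs] at hcc
  have hcls := ncard_class_mul_le n (s * t) s
    (∏ y, ((univ.filter (fun x => r' x = some y)).card.factorial))
  obtain ⟨Φ', hΦ'⟩ : ∃ Φ' : ℕ,
      Φ' = ∏ y, ((univ.filter (fun x => r' x = some y)).card.factorial) := ⟨_, rfl⟩
  obtain ⟨N, hN⟩ : ∃ N : ℕ, N = (⊤ : SimpleGraph (Fin n)).copyCount
      (SimpleGraph.fromRel (fun x y => r x = some y)) := ⟨_, rfl⟩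
  rw [← hΦ'] at hcc hcls hΦ
  rw [← hN] at hcc h1
  have key : N * s ^ s * Φ'
      ≤ (n.choose (s * t) * n.choose s * 2 ^ (2 * (s * t) + s) * (s * t) ^ (s * t))
        * (s * t) ^ s := by
    have e1 := Nat.mul_le_mul_right Φ' hcc
    have e2 := Nat.mul_le_mul_right ((s * t) ^ s) hcls
    calc N * s ^ s * Φ' ≤ _ := e1
      _ = _ := by ring
      _ ≤ _ := e2
  have hst1 : 1 ≤ s * t := Nat.mul_pos hs1 ht1
  have c1 := choose_le_exp_pow n (s * t) hst1
  have c2 := choose_le_exp_pow n s hs1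
  have hspos : (0 : ℝ) < s := by exact_mod_cast hs1
  have htpos : (0 : ℝ) < t := by exact_mod_cast ht1
  have hstpos : (0 : ℝ) < ((s * t : ℕ) : ℝ) := by exact_mod_cast hst1
  have hΦr : ((2 : ℝ) ^ j) ^ s ≤ (Φ' : ℝ) := by exact_mod_cast hΦ
  have keyr : (N : ℝ) * (s : ℝ) ^ s * (Φ' : ℝ)
      ≤ ((n.choose (s * t) : ℝ) * (n.choose s : ℝ) * 2 ^ (2 * (s * t) + s)
          * ((s * t : ℕ) : ℝ) ^ (s * t)) * ((s * t : ℕ) : ℝ) ^ s := by
    exact_mod_cast key
  obtain ⟨A, hA⟩ : ∃ A : ℝ, A = 4 * Real.exp 1 * n * q := ⟨_, rfl⟩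
  rw [← hA]
  have hA0 : 0 ≤ A := by rw [hA]; positivity
  have e1 : (Real.exp 1 * n / ((s * t : ℕ) : ℝ)) ^ (s * t) * ((s * t : ℕ) : ℝ) ^ (s * t)
      = (Real.exp 1 * n) ^ (s * t) := by
    rw [← mul_pow, div_mul_cancel₀ _ hstpos.ne']
  have e2 : (Real.exp 1 * n / s) ^ s * ((s * t : ℕ) : ℝ) ^ s = (Real.exp 1 * n * t) ^ s := by
    rw [← mul_pow]
    congr 1
    push_cast
    field_simp
  have e3 : (2 : ℝ) ^ (2 * (s * t) + s) = 4 ^ (s * t) * 2 ^ s := by
    rw [pow_add, pow_mul]
    norm_num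
  have e4 : q ^ (s * t + s) = q ^ (s * t) * q ^ s := pow_add _ _ _
  have e5 : (A ^ t * (A * t / 2)) ^ s = 4 ^ (s * t) * (Real.exp 1 * n) ^ (s * t) * q ^ (s * t)
      * (2 ^ s * (Real.exp 1 * n * t) ^ s * q ^ s) := by
    rw [mul_pow, ← pow_mul, mul_comm t s]
    have a1 : A ^ (s * t) = 4 ^ (s * t) * (Real.exp 1 * n) ^ (s * t) * q ^ (s * t) := by
      rw [hA, ← mul_pow, ← mul_pow]
      congr 1
      ring
    have a2 : (A * t / 2) ^ s = 2 ^ s * (Real.exp 1 * n * t) ^ s * q ^ s := by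
      rw [hA, ← mul_pow, ← mul_pow]
      congr 1
      ring
    rw [a1, a2]
  have hmain : ((s : ℝ) * 2 ^ j) ^ s ≤ (A ^ t * (A * t / 2)) ^ s := by
    calc ((s : ℝ) * 2 ^ j) ^ s = (s : ℝ) ^ s * ((2 : ℝ) ^ j) ^ s := mul_pow _ _ _
      _ ≤ (s : ℝ) ^ s * Φ' := mul_le_mul_of_nonneg_left hΦr (by positivity)
      _ = ((s : ℝ) ^ s * Φ') * 1 := (mul_one _).symm
      _ ≤ ((s : ℝ) ^ s * Φ') * (N * q ^ (s * t + s)) :=
          mul_le_mul_of_nonneg_left h1 (by positivity)
      _ = (N * (s : ℝ) ^ s * Φ') * q ^ (s * t + s) := by ring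
      _ ≤ (((n.choose (s * t) : ℝ) * (n.choose s : ℝ) * 2 ^ (2 * (s * t) + s)
            * ((s * t : ℕ) : ℝ) ^ (s * t)) * ((s * t : ℕ) : ℝ) ^ s) * q ^ (s * t + s) :=
          mul_le_mul_of_nonneg_right keyr (by positivity)
      _ ≤ (((Real.exp 1 * n / ((s * t : ℕ) : ℝ)) ^ (s * t) * (Real.exp 1 * n / s) ^ s
            * 2 ^ (2 * (s * t) + s) * ((s * t : ℕ) : ℝ) ^ (s * t)) * ((s * t : ℕ) : ℝ) ^ s)
            * q ^ (s * t + s) := by
          gcongr
      _ = ((Real.exp 1 * n / ((s * t : ℕ) : ℝ)) ^ (s * t) * ((s * t : ℕ) : ℝ) ^ (s * t))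
            * ((Real.exp 1 * n / s) ^ s * ((s * t : ℕ) : ℝ) ^ s) * 2 ^ (2 * (s * t) + s)
            * q ^ (s * t + s) := by ring
      _ = (A ^ t * (A * t / 2)) ^ s := by
          rw [e1, e2, e3, e4, e5]
          ring
  have hfin : (s : ℝ) * 2 ^ j ≤ A ^ t * (A * t / 2) :=
    (pow_le_pow_iff_left₀ (by positivity) (by positivity) (by omega : s ≠ 0)).1 hmain
  have hgK : (g : ℝ) + K = t + 1 := by exact_mod_cast ht
  calc (C.card : ℝ) * 2 ^ j = g * ((s : ℝ) * 2 ^ j) := by
        rw [hCs]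
        push_cast
        ring
    _ ≤ g * (A ^ t * (A * t / 2)) := mul_le_mul_of_nonneg_left hfin (by positivity)
    _ = g * (t / 2) * A ^ (t + 1) := by
        rw [pow_succ]
        ring
    _ ≤ g * (g + K) * A ^ (g + K) := by
        rw [ht]
        apply mul_le_mul_of_nonneg_right _ (by positivity)
        apply mul_le_mul_of_nonneg_left _ (by positivity)
        rw [hgK]
        linarith

end Vale.Agent.Lib.P064.PF
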