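import Vale.Agent.Lib.P064.pf.CycFreqCore
import Vale.Agent.Lib.P064.pf.CycClass

/-!
# Frequency bound for cycles (job PF-6)
-/

namespace Vale.Agent.Lib.P064.PF

open Finset SimpleGraph Vale.Agent.KK Vale.Agent.KK.PF

theorem cyc_freq {n : ℕ} {H : SimpleGraph (Fin n)} {q : ℝ} (hq : 0 ≤ q)
    (h : SubgraphsExpected n H q)
    (p : Fin n → Option (Fin n)) (hpH : ∀ x y, p x = some y → H.Adj x y)
    (hp2 : ∀ x y, p x = some y → p y ≠ some x)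
    (par : Fin n → Option (Fin n)) (hpar1 : ∀ v, PerPt p v → par v = none)
    (hpar2 : ∀ v, ¬ PerPt p v → par v = p v)
    (d : Fin n → ℕ) (hd : ∀ u v, par u = some v → d u = d v + 1)
    (E : Fin n → Finset (Fin n))
    (hE1 : ∀ v, ∀ x ∈ E v, par x = some v ∨ ∃ y ∈ E v, par x = some y)
    (hE2 : ∀ v, ∀ x ∈ E v, d v < d x ∧ d x ≤ d v + (E v).card)
    (β : ℝ) (hβ : 0 < β) (P : Fin n → ℝ)
    (hP : ∀ v, P v = β ^ (E v).card * (patFac par E v : ℝ))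
    (hβq : 32 * Real.exp 1 * n * q * β ≤ 1 / 2) (g : ℕ) (hg : 1 ≤ g) :
    ∑ w ∈ univ.filter (fun w => p w ≠ none ∧ Function.minimalPeriod (tot p) w = g),
        ∏ i ∈ range g, P ((tot p)^[i] w) ≤ 4 * (g : ℝ) ^ 2 * (4 * Real.exp 1 * n * q) ^ g :=
  cyc_freq_of_class hq p par E β hβ P hP hβq g hg
    (fun K j C hC1 hC2 hCK hCj =>
      cyc_class_le hq h p hpH hp2 par hpar1 hpar2 d hd E hE1 hE2 g K j hg C hC1 hC2 hCK hCj)

end Vale.Agent.Lib.P064.PF
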