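import Vale.Agent.KK.PF.Defs

/-!
# Weighted placements of the cycles of a permutation on the cycles of an optional-valued map
-/

namespace Vale.Agent.Lib.P064.PF

open Finset Vale.Agent.KK Vale.Agent.KK.PF

/-- A placement intertwines the permutation with the total extension. -/
theorem cycsum_semiconj {V R : Type*} (p : V → Option V) (σ : R → R) (ρ : R → V)
    (h : ∀ x, p (ρ x) = some (ρ (σ x))) : Function.Semiconj ρ σ (tot p) := by
  intro x
  simp [tot, h x]

theorem cycsum_iter {V R : Type*} (p : V → Option V) (σ : R → R) (ρ : R → V)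
    (h : ∀ x, p (ρ x) = some (ρ (σ x))) (i : ℕ) (x : R) :
    (tot p)^[i] (ρ x) = ρ (σ^[i] x) :=
  (((cycsum_semiconj p σ ρ h).iterate_right i).eq x).symm

theorem cycsum_period {V R : Type*} (p : V → Option V) (σ : R → R) (ρ : R → V)
    (hρ : Function.Injective ρ)
    (h : ∀ x, p (ρ x) = some (ρ (σ x))) (x : R) :
    Function.minimalPeriod (tot p) (ρ x) = Function.minimalPeriod σ x := by
  rw [Function.minimalPeriod_eq_minimalPeriod_iff]
  intro n
  unfold Function.IsPeriodicPt Function.IsFixedPt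
  rw [cycsum_iter p σ ρ h n x]
  exact hρ.eq_iff

open Classical in
theorem cycsum_aux {V : Type*} [Fintype V] [DecidableEq V] (p : V → Option V) (ω : V → ℝ)
    (hω : ∀ v, 0 ≤ ω v) (c : ℝ) (hc : 0 ≤ c)
    (hK : ∀ g : ℕ, 1 ≤ g →
      ∑ w ∈ univ.filter (fun w => p w ≠ none ∧ Function.minimalPeriod (tot p) w = g),
        ∏ i ∈ range g, ω ((tot p)^[i] w) ≤ c ^ g) :
    ∀ m : ℕ, ∀ (R : Type) [Fintype R] [DecidableEq R] (σ : R → R), Function.Bijective σ →
      Fintype.card R = m →
    ∑ ρ ∈ (univ : Finset (R → V)).filter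
        (fun ρ => Function.Injective ρ ∧ ∀ x, p (ρ x) = some (ρ (σ x))),
      ∏ x, ω (ρ x) ≤ c ^ m := by
  intro m
  induction m using Nat.strong_induction_on with
  | _ m ih =>
  intro R _ _ σ hσ hcard
  rcases isEmpty_or_nonempty R with hR | ⟨⟨z⟩⟩
  · have hm : m = 0 := by rw [← hcard]; exact Fintype.card_eq_zero
    subst hm
    calc ∑ ρ ∈ (univ : Finset (R → V)).filter
            (fun ρ => Function.Injective ρ ∧ ∀ x, p (ρ x) = some (ρ (σ x))), ∏ x, ω (ρ x)
        ≤ ∑ ρ ∈ (univ : Finset (R → V)), ∏ x, ω (ρ x) := by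
          apply Finset.sum_le_sum_of_subset_of_nonneg (Finset.filter_subset _ _)
          intro ρ _ _; exact Finset.prod_nonneg (fun x _ => hω _)
      _ = 1 := by
          rw [Fintype.sum_unique]
          simp
      _ ≤ c ^ 0 := by simp
  · have hz : z ∈ Function.periodicPts σ := hσ.1.mem_periodicPts z
    set g := Function.minimalPeriod σ z with hg_def
    have hg : 0 < g := Function.minimalPeriod_pos_of_mem_periodicPts hz
    have hper : σ^[g] z = z := Function.iterate_minimalPeriod
    set Z : Finset R := (range g).image (fun i => σ^[i] z) with hZ_def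
    have hinj : Set.InjOn (fun i => σ^[i] z) (range g : Finset ℕ) := by
      intro i hi j hj hij
      have hi' : i ∈ Set.Iio (Function.minimalPeriod σ z) := by
        simpa using hi
      have hj' : j ∈ Set.Iio (Function.minimalPeriod σ z) := by
        simpa using hj
      exact Function.iterate_injOn_Iio_minimalPeriod hi' hj' hij
    have hZcard : Z.card = g := by
      rw [hZ_def, Finset.card_image_of_injOn hinj, Finset.card_range]
    have hZmem : ∀ x, x ∈ Z ↔ ∃ i, i < g ∧ σ^[i] z = x := by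
      intro x
      simp [hZ_def]
    have hs : ∀ j : ℕ, σ (σ^[j] z) = σ^[j + 1] z :=
      fun j => (Function.iterate_succ_apply' σ j z).symm
    have hZσ : ∀ x, x ∈ Z ↔ σ x ∈ Z := by
      intro x
      rw [hZmem, hZmem]
      constructor
      · rintro ⟨i, hi, rfl⟩
        by_cases h1 : i + 1 < g
        · exact ⟨i + 1, h1, (hs i).symm⟩
        · have h2 : i + 1 = g := by omega
          refine ⟨0, hg, ?_⟩
          rw [hs i, h2, hper]
          rfl
      · rintro ⟨i, hi, hix⟩
        rcases Nat.eq_zero_or_pos i with h0 | h0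
        · subst h0
          refine ⟨g - 1, by omega, ?_⟩
          apply hσ.1
          have h3 : g - 1 + 1 = g := by omega
          rw [hs (g - 1), h3, hper]
          exact hix
        · refine ⟨i - 1, by omega, ?_⟩
          apply hσ.1
          have h3 : i - 1 + 1 = i := by omega
          rw [hs (i - 1), h3]
          exact hix
    let σ' : {x // x ∉ Z} → {x // x ∉ Z} := fun x => ⟨σ x.1, fun h => x.2 ((hZσ x.1).2 h)⟩
    have hσ'inj : Function.Injective σ' := by
      intro a b hab
      exact Subtype.ext (hσ.1 (congrArg Subtype.val hab))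
    have hσ' : Function.Bijective σ' := ⟨hσ'inj, Finite.injective_iff_surjective.1 hσ'inj⟩
    have hcard' : Fintype.card {x // x ∉ Z} = m - g := by
      rw [Fintype.card_of_subtype Zᶜ (by intro x; simp), Finset.card_compl, hZcard, hcard]
    have hgm : g ≤ m := by
      rw [← hZcard, ← hcard]
      exact Finset.card_le_univ Z
    have hIH := ih (m - g) (by omega) {x // x ∉ Z} σ' hσ' hcard'
    have hKg := hK g hg
    -- the sets
    set S := (univ : Finset (R → V)).filter
        (fun ρ => Function.Injective ρ ∧ ∀ x, p (ρ x) = some (ρ (σ x))) with hS_def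
    set A := (univ : Finset V).filter
        (fun w => p w ≠ none ∧ Function.minimalPeriod (tot p) w = g) with hA_def
    set B := (univ : Finset ({x // x ∉ Z} → V)).filter
        (fun ρ => Function.Injective ρ ∧ ∀ x, p (ρ x) = some (ρ (σ' x))) with hB_def
    let φ : (R → V) → V × ({x // x ∉ Z} → V) := fun ρ => (ρ z, fun x => ρ x.1)
    let G : V × ({x // x ∉ Z} → V) → ℝ := fun y =>
      (∏ i ∈ range g, ω ((tot p)^[i] y.1)) * ∏ x, ω (y.2 x)
    have hG0 : ∀ y, 0 ≤ G y := fun y =>
      mul_nonneg (Finset.prod_nonneg (fun _ _ => hω _)) (Finset.prod_nonneg (fun _ _ => hω _))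
    have hS : ∀ ρ, ρ ∈ S ↔ Function.Injective ρ ∧ ∀ x, p (ρ x) = some (ρ (σ x)) := by
      intro ρ; simp [hS_def]
    have c1 : ∀ ρ ∈ S, φ ρ ∈ A ×ˢ B := by
      intro ρ hρ
      obtain ⟨hρi, hρp⟩ := (hS ρ).1 hρ
      rw [Finset.mem_product]
      constructor
      · simp only [hA_def, Finset.mem_filter, Finset.mem_univ, true_and]
        refine ⟨?_, ?_⟩
        · show p (ρ z) ≠ none
          rw [hρp z]; simp
        · show Function.minimalPeriod (tot p) (ρ z) = g
          exact cycsum_period p σ ρ hρi hρp z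
      · simp only [hB_def, Finset.mem_filter, Finset.mem_univ, true_and]
        refine ⟨?_, ?_⟩
        · intro a b hab
          exact Subtype.ext (hρi hab)
        · intro x
          exact hρp x.1
    have c2 : Set.InjOn φ (S : Set (R → V)) := by
      intro ρ1 h1 ρ2 h2 h12
      obtain ⟨_, hρp1⟩ := (hS ρ1).1 (by simpa using h1)
      obtain ⟨_, hρp2⟩ := (hS ρ2).1 (by simpa using h2)
      have e1 : ρ1 z = ρ2 z := congrArg Prod.fst h12
      have e2 : (fun x : {x // x ∉ Z} => ρ1 x.1) = (fun x : {x // x ∉ Z} => ρ2 x.1) :=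
        congrArg Prod.snd h12
      funext x
      by_cases hx : x ∈ Z
      · obtain ⟨i, _, rfl⟩ := (hZmem x).1 hx
        rw [← cycsum_iter p σ ρ1 hρp1 i z, ← cycsum_iter p σ ρ2 hρp2 i z, e1]
      · exact congrFun e2 ⟨x, hx⟩
    have c3 : ∀ ρ ∈ S, ∏ x, ω (ρ x) = G (φ ρ) := by
      intro ρ hρ
      obtain ⟨_, hρp⟩ := (hS ρ).1 hρ
      show ∏ x, ω (ρ x) = (∏ i ∈ range g, ω ((tot p)^[i] (ρ z))) *
        ∏ x : {x // x ∉ Z}, ω (ρ x.1)
      rw [← Finset.prod_mul_prod_compl Z (fun x => ω (ρ x))]
      congr 1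
      · rw [hZ_def, Finset.prod_image hinj]
        apply Finset.prod_congr rfl
        intro i _
        rw [cycsum_iter p σ ρ hρp i z]
      · exact Finset.prod_subtype Zᶜ (by intro x; simp) (fun x => ω (ρ x))
    calc ∑ ρ ∈ S, ∏ x, ω (ρ x) = ∑ ρ ∈ S, G (φ ρ) := Finset.sum_congr rfl c3
      _ = ∑ y ∈ S.image φ, G y := (Finset.sum_image c2).symm
      _ ≤ ∑ y ∈ A ×ˢ B, G y := by
          apply Finset.sum_le_sum_of_subset_of_nonneg
          · intro y hy
            obtain ⟨ρ, hρ, rfl⟩ := Finset.mem_image.1 hy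
            exact c1 ρ hρ
          · intro y _ _; exact hG0 y
      _ = (∑ w ∈ A, ∏ i ∈ range g, ω ((tot p)^[i] w)) * ∑ ρ ∈ B, ∏ x, ω (ρ x) := by
          rw [Finset.sum_product, Finset.sum_mul_sum]
      _ ≤ c ^ g * c ^ (m - g) := by
          apply mul_le_mul hKg hIH
          · exact Finset.sum_nonneg (fun _ _ => Finset.prod_nonneg (fun _ _ => hω _))
          · exact pow_nonneg hc g
      _ = c ^ m := by
          rw [← pow_add]
          congr 1
          omega

open Classical in
theorem cycle_sum_le {V : Type*} [Fintype V] [DecidableEq V] (p : V → Option V) (ω : V → ℝ)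
    (hω : ∀ v, 0 ≤ ω v) (c : ℝ) (hc : 0 ≤ c)
    (hK : ∀ g : ℕ, 1 ≤ g →
      ∑ w ∈ univ.filter (fun w => p w ≠ none ∧ Function.minimalPeriod (tot p) w = g),
        ∏ i ∈ range g, ω ((tot p)^[i] w) ≤ c ^ g)
    {R : Type} [Fintype R] [DecidableEq R] (σ : R → R) (hσ : Function.Bijective σ) :
    ∑ ρ ∈ (univ : Finset (R → V)).filter
        (fun ρ => Function.Injective ρ ∧ ∀ x, p (ρ x) = some (ρ (σ x))),
      ∏ x, ω (ρ x) ≤ c ^ Fintype.card R :=
  cycsum_aux p ω hω c hc hK (Fintype.card R) R σ hσ rfl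

end Vale.Agent.Lib.P064.PF
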