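import Vale.Agent.KK.PF.Defs

/-!
# Depth function of a partial function without cycle points
-/

namespace Vale.Agent.Lib.P064.PF

open Vale.Agent.KK.PF

/-- In a finite type, every orbit of the total extension of a partial function without cycle
points reaches a point without a value. -/
theorem depth_exists_none {V : Type*} [Finite V] (p : V → Option V) (h : ∀ v, ¬ PerPt p v)
    (v : V) : ∃ k : ℕ, p ((tot p)^[k] v) = none := by
  obtain ⟨m, n, hmn, hEq0⟩ := Finite.exists_ne_map_eq_of_infinite (fun k : ℕ => (tot p)^[k] v)
  have hEq : (tot p)^[m] v = (tot p)^[n] v := hEq0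
  clear hEq0
  wlog hlt : m < n generalizing m n
  · exact this n m (Ne.symm hmn) hEq.symm (lt_of_le_of_ne (not_lt.mp hlt) (Ne.symm hmn))
  refine ⟨m, ?_⟩
  by_contra hne
  apply h ((tot p)^[m] v)
  refine ⟨hne, ?_⟩
  refine Function.mk_mem_periodicPts (Nat.sub_pos_of_lt hlt) ?_
  show (tot p)^[n - m] ((tot p)^[m] v) = (tot p)^[m] v
  rw [← Function.iterate_add_apply, Nat.sub_add_cancel hlt.le]
  exact hEq.symm

theorem exists_depth {V : Type*} [Finite V] (p : V → Option V) (h : ∀ v, ¬ PerPt p v) :
    ∃ d : V → ℕ, ∀ u v, p u = some v → d u = d v + 1 := by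
  classical
  have hex := depth_exists_none p h
  refine ⟨fun v => Nat.find (hex v), ?_⟩
  intro u v huv
  have hf : tot p u = v := by simp [tot, huv]
  have hshift : ∀ k, (tot p)^[k + 1] u = (tot p)^[k] v := by
    intro k
    rw [Function.iterate_succ_apply, hf]
  show Nat.find (hex u) = Nat.find (hex v) + 1
  rw [Nat.find_eq_iff]
  refine ⟨?_, ?_⟩
  · rw [hshift]
    exact Nat.find_spec (hex v)
  · intro n hn
    cases n with
    | zero =>
      simp [huv]
    | succ j =>
      rw [hshift]
      exact Nat.find_min (hex v) (by omega)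

theorem not_perPt_cutPer {V : Type*} (p : V → Option V) (v : V) : ¬ PerPt (cutPer p) v := by
  classical
  rintro ⟨hv, hper⟩
  -- where `cutPer p` has a value, it agrees with `p` and the point is not on a cycle of `p`
  have hcut : ∀ x, cutPer p x ≠ none → ¬ PerPt p x ∧ cutPer p x = p x := by
    intro x hx
    unfold cutPer at hx ⊢
    by_cases hp : PerPt p x
    · simp [hp] at hx
    · exact ⟨hp, by simp [hp]⟩
  obtain ⟨k, hk0, hk⟩ := hper
  set g := tot (cutPer p) with hg
  -- no point of the orbit of `v` is without a value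
  have horb : ∀ i, cutPer p (g^[i] v) ≠ none := by
    intro i hi
    have hfix : g (g^[i] v) = g^[i] v := by
      show (cutPer p (g^[i] v)).getD (g^[i] v) = g^[i] v
      rw [hi]
      rfl
    have hper' : g^[k * (i + 1)] v = v := (hk.mul_const (i + 1))
    have hsplit : g^[k * (i + 1)] v = g^[k * (i + 1) - i] (g^[i] v) := by
      rw [← Function.iterate_add_apply]
      congr 2
      have : i ≤ k * (i + 1) := by nlinarith
      omega
    have hstay : g^[k * (i + 1) - i] (g^[i] v) = g^[i] v := Function.iterate_fixed hfix _
    have : g^[i] v = v := by rw [← hstay, ← hsplit, hper']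
    rw [this] at hi
    exact hv hi
  -- along the orbit the two total extensions agree
  have hagree : ∀ i, g^[i] v = (tot p)^[i] v := by
    intro i
    induction i with
    | zero => rfl
    | succ i ih =>
      rw [Function.iterate_succ_apply', Function.iterate_succ_apply', ← ih]
      have h2 := (hcut _ (horb i)).2
      show (cutPer p (g^[i] v)).getD (g^[i] v) = (p (g^[i] v)).getD (g^[i] v)
      rw [h2]
  have hpv := hcut v hv
  apply hpv.1
  refine ⟨by rw [← hpv.2]; exact hv, ?_⟩
  refine Function.mk_mem_periodicPts hk0 ?_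
  show (tot p)^[k] v = v
  rw [← hagree k]
  exact hk

theorem exists_depth_cutPer {V : Type*} [Finite V] (p : V → Option V) :
    ∃ d : V → ℕ, ∀ u v, cutPer p u = some v → d u = d v + 1 :=
  exists_depth (cutPer p) (not_perPt_cutPer p)

end Vale.Agent.Lib.P064.PF
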