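import Vale.Agent.KK.FH.Freq
import Vale.Agent.Lib.P064.helper26.Patterns
import Vale.Agent.Lib.P064.helper35.Key3
import Vale.Agent.Lib.P064.pf.Depth
import Vale.Agent.Lib.P064.helper55.PinnedAlt
import Vale.Agent.Lib.P064.pf.CycleSum
import Vale.Agent.Lib.P064.pf.CycFreq

/-!
# Injective maps from a total pattern function into an option-valued function (cyclic part)
-/

namespace Vale.Agent.Lib.P064.PF

open Finset SimpleGraph Vale.Agent.KK Vale.Agent.KK.PF Vale.Agent.Lib.P064

/-- A total function seen as an option-valued function. -/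
def cpSome {U : Type*} (o : U → U) : U → Option U := fun x => some (o x)

theorem cp_tot {U : Type*} (o : U → U) : tot (cpSome o) = o := by
  funext x
  simp [tot, cpSome]

theorem cp_perPt {U : Type*} (o : U → U) (x : U) :
    PerPt (cpSome o) x ↔ x ∈ Function.periodicPts o := by
  unfold PerPt
  rw [cp_tot]
  simp [cpSome]

theorem cp_cut_none {U : Type*} (o : U → U) (x : U) :
    cutPer (cpSome o) x = none ↔ x ∈ Function.periodicPts o := by
  classical
  unfold cutPer
  by_cases hx : PerPt (cpSome o) x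
  · simp [hx, (cp_perPt o x).1 hx]
  · have hx' : x ∉ Function.periodicPts o := fun h => hx ((cp_perPt o x).2 h)
    simp [hx, hx', cpSome]

theorem cp_cut_some {U : Type*} (o : U → U) (x y : U) (h : cutPer (cpSome o) x = some y) :
    x ∉ Function.periodicPts o ∧ y = o x := by
  classical
  unfold cutPer at h
  by_cases hx : PerPt (cpSome o) x
  · simp [hx] at h
  · rw [if_neg hx] at h
    refine ⟨fun hp => hx ((cp_perPt o x).2 hp), ?_⟩
    have h2 : some (o x) = some y := h
    exact (Option.some.inj h2).symm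

theorem cp_iter {V U : Type*} (p : V → Option V) (o : U → U) (φ : U → V)
    (hφ : ∀ x, p (φ x) = some (φ (o x))) (k : ℕ) (x : U) :
    (tot p)^[k] (φ x) = φ (o^[k] x) := by
  induction k generalizing x with
  | zero => rfl
  | succ k ih =>
    rw [Function.iterate_succ_apply, Function.iterate_succ_apply, ← ih (o x)]
    congr 1
    simp [tot, hφ x]

theorem cp_perPt_iff {V U : Type*} (p : V → Option V) (o : U → U) (φ : U → V)
    (hinj : Function.Injective φ) (hφ : ∀ x, p (φ x) = some (φ (o x))) (x : U) :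
    PerPt p (φ x) ↔ x ∈ Function.periodicPts o := by
  constructor
  · rintro ⟨-, hper⟩
    obtain ⟨m, hm, hmper⟩ := Function.mem_periodicPts.1 hper
    refine Function.mk_mem_periodicPts hm ?_
    have h1 : (tot p)^[m] (φ x) = φ x := hmper
    rw [cp_iter p o φ hφ m x] at h1
    exact hinj h1
  · intro hper
    obtain ⟨m, hm, hmper⟩ := Function.mem_periodicPts.1 hper
    refine ⟨by rw [hφ x]; simp, Function.mk_mem_periodicPts hm ?_⟩
    have h1 : o^[m] x = x := hmper
    show (tot p)^[m] (φ x) = φ x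
    rw [cp_iter p o φ hφ m x, h1]

theorem cp_four_sq (g : ℕ) (hg : 1 ≤ g) : 4 * g ^ 2 ≤ 4 ^ g := by
  induction g with
  | zero => omega
  | succ g ih =>
    rcases Nat.eq_zero_or_pos g with h0 | hpos
    · subst h0
      norm_num
    · have h1 := ih hpos
      have h2 : (g + 1) ^ 2 ≤ 4 * g ^ 2 := by nlinarith
      calc 4 * (g + 1) ^ 2 ≤ 4 * (4 * g ^ 2) := by omega
        _ ≤ 4 * 4 ^ g := by omega
        _ = 4 ^ (g + 1) := by ring

/-- The abstract counting core of the cyclic part. -/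
theorem cp_core {V : Type*} [Fintype V] [DecidableEq V] (p par : V → Option V)
    (hpar2 : ∀ v, ¬ PerPt p v → par v = p v)
    (a : ℝ) (ha : 0 < a) (Wt : V → ℝ) (hW0 : ∀ v, 0 ≤ Wt v)
    (hsup : ∀ v, ∑ A ∈ (univ.filter (fun u => par u = some v)).powerset,
        (A.card.factorial : ℝ) * a ^ A.card * ∏ u ∈ A, Wt u ≤ Wt v)
    (c : ℝ) (hc : 0 ≤ c) (hca : c ≤ 1 / a)
    (hK : ∀ g : ℕ, 1 ≤ g →
      ∑ w ∈ univ.filter (fun w => p w ≠ none ∧ Function.minimalPeriod (tot p) w = g),
        ∏ i ∈ range g, Wt ((tot p)^[i] w) ≤ c ^ g)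
    {U : Type} [Fintype U] [DecidableEq U] (o : U → U) :
    (Nat.card {φ : U → V // Function.Injective φ ∧ ∀ x, p (φ x) = some (φ (o x))} : ℝ) ≤
      (1 / a) ^ Fintype.card U := by
  classical
  have h1a : 0 ≤ 1 / a := by positivity
  by_cases hemp : IsEmpty {φ : U → V // Function.Injective φ ∧ ∀ x, p (φ x) = some (φ (o x))}
  · rw [Nat.card_of_isEmpty]
    simp only [Nat.cast_zero]
    positivity
  rw [not_isEmpty_iff] at hemp
  obtain ⟨⟨φ0, hφ0inj, hφ0⟩⟩ := hemp
  obtain ⟨e, he⟩ := exists_depth_cutPer (cpSome o)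
  let R : Type := {x : U // x ∈ Function.periodicPts o}
  have hσmem : ∀ x : R, o x.1 ∈ Function.periodicPts o := fun x => by
    obtain ⟨m, hm, hmper⟩ := Function.mem_periodicPts.1 x.2
    exact Function.mk_mem_periodicPts hm hmper.apply
  let σ : R → R := fun x => ⟨o x.1, hσmem x⟩
  have hσ : Function.Bijective σ := by
    rw [← Finite.injective_iff_bijective]
    intro x y hxy
    have h1 : o x.1 = o y.1 := congrArg Subtype.val hxy
    exact Subtype.ext ((Function.bijOn_periodicPts o).injOn x.2 y.2 h1)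
  have hcs := cycle_sum_le p Wt hW0 c hc hK σ hσ
  obtain ⟨PP, hPPmem, hPPsum⟩ : ∃ PP : Finset (R → V),
      (∀ ρ, ρ ∈ PP ↔ Function.Injective ρ ∧ ∀ x, p (ρ x) = some (ρ (σ x))) ∧
      ∑ ρ ∈ PP, ∏ x, Wt (ρ x) ≤ c ^ Fintype.card R :=
    ⟨_, fun ρ => by simp, hcs⟩
  let ext : (R → V) → U → V := fun ρ x =>
    if hx : x ∈ Function.periodicPts o then ρ ⟨x, hx⟩ else φ0 x
  obtain ⟨ΦF, hΦFmem, hΦFcard⟩ : ∃ ΦF : Finset (U → V),
      (∀ φ, φ ∈ ΦF ↔ Function.Injective φ ∧ ∀ x, p (φ x) = some (φ (o x))) ∧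
      Nat.card {φ : U → V // Function.Injective φ ∧ ∀ x, p (φ x) = some (φ (o x))} =
        ΦF.card :=
    ⟨univ.filter (fun φ : U → V => Function.Injective φ ∧ ∀ x, p (φ x) = some (φ (o x))),
      fun φ => by simp, by rw [Nat.card_eq_fintype_card, Fintype.card_subtype]⟩
  rw [hΦFcard]
  have hfib : ΦF.card = ∑ ρ ∈ PP, (ΦF.filter (fun φ => (fun x : R => φ x.1) = ρ)).card := by
    apply Finset.card_eq_sum_card_fiberwise
    intro φ hφ
    have hφ' := (hΦFmem φ).1 hφ
    exact (hPPmem _).2 ⟨fun x y hxy => Subtype.ext (hφ'.1 hxy), fun x => hφ'.2 x.1⟩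
  obtain ⟨m', hm'⟩ : ∃ m' : ℕ, m' + Fintype.card R = Fintype.card U ∧
      (univ.filter (fun x : U => x ∉ Function.periodicPts o)).card = m' := by
    refine ⟨_, ?_, rfl⟩
    have h1 : Fintype.card R = (univ.filter (fun x : U => x ∈ Function.periodicPts o)).card :=
      Fintype.card_subtype _
    rw [h1, add_comm]
    rw [Finset.card_filter_add_card_filter_not, Finset.card_univ]
  have hfibre : ∀ ρ ∈ PP, ((ΦF.filter (fun φ => (fun x : R => φ x.1) = ρ)).card : ℝ) ≤
      (1 / a) ^ m' * ∏ x, Wt (ρ x) := by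
    intro ρ hρ
    have hpin := pinned_count_h55 par a ha Wt hW0 hsup (cutPer (cpSome o)) e he (ext ρ)
    have hsub : (ΦF.filter (fun φ => (fun x : R => φ x.1) = ρ)).card ≤
        Nat.card {φ : U → V // Function.Injective φ ∧
          (∀ x y, cutPer (cpSome o) x = some y → par (φ x) = some (φ y)) ∧
          ∀ x, cutPer (cpSome o) x = none → φ x = ext ρ x} := by
      rw [Nat.card_eq_fintype_card, Fintype.card_subtype]
      apply Finset.card_le_card
      intro φ hφ
      rw [mem_filter] at hφ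
      obtain ⟨hφ1, hres⟩ := hφ
      obtain ⟨hinj, hmor⟩ := (hΦFmem φ).1 hφ1
      rw [mem_filter]
      refine ⟨mem_univ _, hinj, fun x y hxy => ?_, fun x hx => ?_⟩
      · obtain ⟨hxper, rfl⟩ := cp_cut_some o x y hxy
        have hnp : ¬ PerPt p (φ x) :=
          fun hp => hxper ((cp_perPt_iff p o φ hinj hmor x).1 hp)
        rw [hpar2 _ hnp, hmor x]
      · have hxper := (cp_cut_none o x).1 hx
        have h2 := congrFun hres ⟨x, hxper⟩
        simp only [ext, dif_pos hxper]
        exact h2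
    have e1 : (univ.filter (fun x => cutPer (cpSome o) x ≠ none)).card = m' := by
      rw [← hm'.2]
      congr 1
      ext x
      simp [cp_cut_none]
    have e2 : ∏ x ∈ univ.filter (fun x => cutPer (cpSome o) x = none), Wt (ext ρ x) =
        ∏ x : R, Wt (ρ x) := by
      rw [Finset.prod_subtype (univ.filter (fun x => cutPer (cpSome o) x = none))
        (p := fun x => x ∈ Function.periodicPts o) (fun x => by simp [cp_cut_none])
        (fun x => Wt (ext ρ x))]
      apply Finset.prod_congr rfl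
      intro x _
      simp only [ext, dif_pos x.2]
    calc ((ΦF.filter (fun φ => (fun x : R => φ x.1) = ρ)).card : ℝ)
        ≤ (Nat.card {φ : U → V // Function.Injective φ ∧
          (∀ x y, cutPer (cpSome o) x = some y → par (φ x) = some (φ y)) ∧
          ∀ x, cutPer (cpSome o) x = none → φ x = ext ρ x} : ℝ) := by exact_mod_cast hsub
      _ ≤ _ := hpin
      _ = (1 / a) ^ m' * ∏ x, Wt (ρ x) := by rw [e1, e2]
  have hsum0 : 0 ≤ ∑ ρ ∈ PP, ∏ x, Wt (ρ x) :=
    Finset.sum_nonneg fun ρ _ => Finset.prod_nonneg fun x _ => hW0 _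
  calc (ΦF.card : ℝ)
      = ∑ ρ ∈ PP, ((ΦF.filter (fun φ => (fun x : R => φ x.1) = ρ)).card : ℝ) := by
        rw [hfib]
        push_cast
        rfl
    _ ≤ ∑ ρ ∈ PP, (1 / a) ^ m' * ∏ x, Wt (ρ x) := Finset.sum_le_sum hfibre
    _ = (1 / a) ^ m' * ∑ ρ ∈ PP, ∏ x, Wt (ρ x) := by rw [Finset.mul_sum]
    _ ≤ (1 / a) ^ m' * c ^ Fintype.card R := by gcongr
    _ ≤ (1 / a) ^ m' * (1 / a) ^ Fintype.card R := by gcongr
    _ = (1 / a) ^ Fintype.card U := by rw [← pow_add, hm'.1]

theorem cyclic_part {n : ℕ} {H : SimpleGraph (Fin n)} {q : ℝ} (hq : 0 ≤ q)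
    (h : SubgraphsExpected n H q)
    (p : Fin n → Option (Fin n)) (hpH : ∀ x y, p x = some y → H.Adj x y)
    (hp2 : ∀ x y, p x = some y → p y ≠ some x)
    {U : Type} [Fintype U] [DecidableEq U] (o : U → U) :
    (Nat.card {φ : U → Fin n // Function.Injective φ ∧ ∀ x, p (φ x) = some (φ (o x))} : ℝ) ≤
      (180000 * (n * q)) ^ Fintype.card U := by
  classical
  by_cases hemp :
      IsEmpty {φ : U → Fin n // Function.Injective φ ∧ ∀ x, p (φ x) = some (φ (o x))}
  · rw [Nat.card_of_isEmpty]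
    simp only [Nat.cast_zero]
    positivity
  rw [not_isEmpty_iff] at hemp
  obtain ⟨⟨φ0, hφ0inj, hφ0⟩⟩ := hemp
  rcases isEmpty_or_nonempty U with hU | hU
  · have hsub : Subsingleton
        {φ : U → Fin n // Function.Injective φ ∧ ∀ x, p (φ x) = some (φ (o x))} :=
      ⟨fun a b => Subtype.ext (funext fun x => isEmptyElim x)⟩
    have h1 : Nat.card
        {φ : U → Fin n // Function.Injective φ ∧ ∀ x, p (φ x) = some (φ (o x))} ≤ 1 :=
      Finite.card_le_one_iff_subsingleton.2 hsub
    rw [Fintype.card_eq_zero, pow_zero]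
    exact_mod_cast h1
  obtain ⟨x0⟩ := hU
  have hadj : H.Adj (φ0 x0) (φ0 (o x0)) := hpH _ _ (hφ0 x0)
  have hqpos : 0 < q := by
    by_contra hq'
    have hq0 : q = 0 := le_antisymm (not_lt.1 hq') hq
    have h1 := hyp_spanning h H le_rfl
    have hne : H.edgeSet.ncard ≠ 0 := by
      rw [Ne, Set.ncard_eq_zero (Set.toFinite _)]
      intro h0
      have hmem : s(φ0 x0, φ0 (o x0)) ∈ H.edgeSet := hadj
      rw [h0] at hmem
      exact hmem
    rw [hq0, zero_pow hne, mul_zero] at h1
    linarith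
  have hnpos : 0 < n := Fin.pos (φ0 x0)
  have hnR : (0 : ℝ) < n := by exact_mod_cast hnpos
  obtain ⟨d, hd⟩ := exists_depth_cutPer p
  have hpar1 : ∀ v, PerPt p v → cutPer p v = none := fun v hv => by simp [cutPer, hv]
  have hpar2 : ∀ v, ¬ PerPt p v → cutPer p v = p v := fun v hv => by simp [cutPer, hv]
  set a : ℝ := 1 / (180000 * (n * q)) with ha_def
  have ha : 0 < a := by positivity
  set β : ℝ := 1024 * a with hβ_def
  have hβ : 0 < β := by positivity
  obtain ⟨P, E, hP2, hP3, hE1, hE2⟩ := exists_patterns (cutPer p) d hd β hβ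
  have hβq : 32 * Real.exp 1 * n * q * β ≤ 1 / 2 := by
    have e1 : 32 * Real.exp 1 * n * q * β = 32768 * Real.exp 1 / 180000 := by
      rw [hβ_def, ha_def]
      field_simp
      ring
    rw [e1]
    have := Real.exp_one_lt_d9
    linarith
  set A0 := Real.exp (1 / (6 * a)) with hA0
  have hA0_1 : 1 ≤ A0 := Real.one_le_exp (by positivity)
  have hA0pos : 0 < A0 := Real.exp_pos _
  have hP1 : ∀ v, 1 ≤ P v := fun v => by simpa using hP2 v ∅ (by simp)
  have hP0 : ∀ v, 0 ≤ P v := fun v => le_trans zero_le_one (hP1 v)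
  set Wt : Fin n → ℝ := fun v => 2 + P v / A0 with hWt
  have hW0 : ∀ v, 0 ≤ Wt v := fun v => by
    have := div_nonneg (hP0 v) hA0pos.le
    simp only [hWt]
    linarith
  have hsup : ∀ v, ∑ A ∈ (univ.filter (fun u => cutPer p u = some v)).powerset,
      (A.card.factorial : ℝ) * a ^ A.card * ∏ u ∈ A, Wt u ≤ Wt v := by
    intro v
    apply key3 _ a ha P Wt (P v)
    · intro i _; exact hP1 i
    · intro i _; exact hW0 i
    · intro i _; exact le_rfl
    · intro T hT
      apply hP2 v T
      intro u hu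
      exact (mem_filter.1 (hT hu)).2
  have hW3 : ∀ v, Wt v ≤ 3 * P v := fun v => by
    have h1 : P v / A0 ≤ P v := div_le_self (hP0 v) hA0_1
    have h2 := hP1 v
    simp only [hWt]
    linarith
  set c : ℝ := 48 * Real.exp 1 * (n * q) with hc_def
  have hc : 0 ≤ c := by positivity
  have h1a : 1 / a = 180000 * (n * q) := by
    rw [ha_def]
    field_simp
  have hca : c ≤ 1 / a := by
    rw [h1a, hc_def]
    have h3 := Real.exp_one_lt_d9
    have hnq : 0 ≤ (n : ℝ) * q := by positivity
    nlinarith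
  have hK : ∀ g : ℕ, 1 ≤ g →
      ∑ w ∈ univ.filter (fun w => p w ≠ none ∧ Function.minimalPeriod (tot p) w = g),
        ∏ i ∈ range g, Wt ((tot p)^[i] w) ≤ c ^ g := by
    intro g hg
    have hfreq := cyc_freq hq h p hpH hp2 (cutPer p) hpar1 hpar2 d hd E hE1 hE2 β hβ P
      (fun v => by rw [hP3 v]; rfl) hβq g hg
    have h4 : (4 : ℝ) * (g : ℝ) ^ 2 ≤ 4 ^ g := by exact_mod_cast cp_four_sq g hg
    calc ∑ w ∈ univ.filter (fun w => p w ≠ none ∧ Function.minimalPeriod (tot p) w = g),
          ∏ i ∈ range g, Wt ((tot p)^[i] w)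
        ≤ ∑ w ∈ univ.filter (fun w => p w ≠ none ∧ Function.minimalPeriod (tot p) w = g),
          3 ^ g * ∏ i ∈ range g, P ((tot p)^[i] w) := by
          apply Finset.sum_le_sum
          intro w _
          calc ∏ i ∈ range g, Wt ((tot p)^[i] w)
              ≤ ∏ i ∈ range g, (3 * P ((tot p)^[i] w)) :=
                Finset.prod_le_prod (fun i _ => hW0 _) (fun i _ => hW3 _)
            _ = 3 ^ g * ∏ i ∈ range g, P ((tot p)^[i] w) := by
                rw [Finset.prod_mul_distrib, Finset.prod_const, Finset.card_range]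
      _ = 3 ^ g * ∑ w ∈ univ.filter
            (fun w => p w ≠ none ∧ Function.minimalPeriod (tot p) w = g),
          ∏ i ∈ range g, P ((tot p)^[i] w) := by rw [Finset.mul_sum]
      _ ≤ 3 ^ g * (4 * (g : ℝ) ^ 2 * (4 * Real.exp 1 * n * q) ^ g) := by
          apply mul_le_mul_of_nonneg_left hfreq
          positivity
      _ ≤ 3 ^ g * (4 ^ g * (4 * Real.exp 1 * n * q) ^ g) := by
          apply mul_le_mul_of_nonneg_left _ (by positivity)
          apply mul_le_mul_of_nonneg_right h4
          positivity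
      _ = c ^ g := by
          rw [hc_def, ← mul_pow, ← mul_pow]
          congr 1
          ring
  have hcore := cp_core p (cutPer p) hpar2 a ha Wt hW0 hsup c hc hca hK o
  rw [h1a] at hcore
  exact hcore

end Vale.Agent.Lib.P064.PF
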