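import Mathlib

/-!
# P064: a graph in which every vertex set spans at most as many edges as it has vertices is the
graph of a partial function (Hall's theorem)
-/

namespace Vale.Agent.Lib.P064.PF

open Finset SimpleGraph

theorem exists_out_orientation {V : Type*} [Fintype V] [DecidableEq V] (H : SimpleGraph V)
    (h : ∀ S : Finset V, {e ∈ H.edgeSet | ∀ v ∈ e, v ∈ S}.ncard ≤ S.card) :
    ∃ p : V → Option V, (∀ u v, H.Adj u v ↔ (p u = some v ∨ p v = some u)) ∧
      ∀ u v, p u = some v → p v ≠ some u := by
  classical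
  -- Hall's theorem for the family of the endpoint sets of the edges
  obtain ⟨f, hfinj, hfmem⟩ :=
    (Finset.all_card_le_biUnion_card_iff_exists_injective
      (fun e : H.edgeSet => (e : Sym2 V).toFinset)).mp (by
        intro s
        set U := s.biUnion (fun e : H.edgeSet => (e : Sym2 V).toFinset) with hU
        have h1 : ((s.image Subtype.val : Finset (Sym2 V)) : Set (Sym2 V)) ⊆
            {e ∈ H.edgeSet | ∀ v ∈ e, v ∈ U} := by
          intro e he
          rw [Finset.mem_coe, Finset.mem_image] at he
          obtain ⟨e', he', rfl⟩ := he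
          refine ⟨e'.2, fun v hv => ?_⟩
          exact Finset.mem_biUnion.mpr ⟨e', he', Sym2.mem_toFinset.mpr hv⟩
        calc s.card = (s.image Subtype.val).card :=
              (Finset.card_image_of_injective _ Subtype.val_injective).symm
          _ = ((s.image Subtype.val : Finset (Sym2 V)) : Set (Sym2 V)).ncard :=
              (Set.ncard_coe_finset _).symm
          _ ≤ {e ∈ H.edgeSet | ∀ v ∈ e, v ∈ U}.ncard :=
              Set.ncard_le_ncard h1 (Set.toFinite _)
          _ ≤ U.card := h U)
  have hf : ∀ e : H.edgeSet, f e ∈ (e : Sym2 V) := fun e => Sym2.mem_toFinset.mp (hfmem e)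
  -- the partial function: the chosen endpoint of an edge points to the other endpoint
  let p : V → Option V := fun u =>
    if hu : ∃ v, ∃ hadj : H.Adj u v, f ⟨s(u, v), (H.mem_edgeSet).mpr hadj⟩ = u
    then some (Classical.choose hu) else none
  have key : ∀ u v, p u = some v ↔
      ∃ hadj : H.Adj u v, f ⟨s(u, v), (H.mem_edgeSet).mpr hadj⟩ = u := by
    intro u v
    constructor
    · intro hp
      by_cases hu : ∃ v, ∃ hadj : H.Adj u v, f ⟨s(u, v), (H.mem_edgeSet).mpr hadj⟩ = u
      · have hpu : p u = some (Classical.choose hu) := dif_pos hu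
        rw [hpu] at hp
        have hv : Classical.choose hu = v := Option.some.inj hp
        have hspec := Classical.choose_spec hu
        rw [hv] at hspec
        exact hspec
      · have hpu : p u = none := dif_neg hu
        rw [hpu] at hp
        exact absurd hp (by simp)
    · rintro ⟨hadj, hfu⟩
      have hu : ∃ v, ∃ hadj : H.Adj u v, f ⟨s(u, v), (H.mem_edgeSet).mpr hadj⟩ = u :=
        ⟨v, hadj, hfu⟩
      have hpu : p u = some (Classical.choose hu) := dif_pos hu
      rw [hpu]
      obtain ⟨hadj', hfu'⟩ := Classical.choose_spec hu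
      have heq := hfinj (hfu'.trans hfu.symm)
      have heq' : s(u, Classical.choose hu) = s(u, v) := congrArg Subtype.val heq
      rw [Sym2.congr_right.mp heq']
  have swap : ∀ u v (hadj : H.Adj u v),
      (⟨s(v, u), (H.mem_edgeSet).mpr hadj.symm⟩ : H.edgeSet)
        = ⟨s(u, v), (H.mem_edgeSet).mpr hadj⟩ := fun u v hadj => Subtype.ext Sym2.eq_swap
  refine ⟨p, fun u v => ⟨fun hadj => ?_, fun hp => ?_⟩, fun u v hp hp' => ?_⟩
  · have hmem := hf ⟨s(u, v), (H.mem_edgeSet).mpr hadj⟩
    rcases Sym2.mem_iff.mp hmem with h1 | h1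
    · exact Or.inl ((key u v).mpr ⟨hadj, h1⟩)
    · refine Or.inr ((key v u).mpr ⟨hadj.symm, ?_⟩)
      rw [swap u v hadj]
      exact h1
  · rcases hp with hp | hp
    · exact ((key u v).mp hp).1
    · exact ((key v u).mp hp).1.symm
  · obtain ⟨hadj, h1⟩ := (key u v).mp hp
    obtain ⟨hadj', h2⟩ := (key v u).mp hp'
    rw [swap u v hadj] at h2
    exact H.ne_of_adj hadj (h1.symm.trans h2)

end Vale.Agent.Lib.P064.PF
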