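import Mathlib
import Vale.Agent.KK.PF.Defs

/-!
# P064: copies in the graph of a function, split by the orientation they induce
-/

open Finset SimpleGraph

namespace Vale.Agent.Lib.P064.PF

open Classical in
/-- The orientation that a vertex map induces on the pattern graph. -/
noncomputable def orientOf {V W : Type} (p : V → Option V) (F : SimpleGraph W) (φ : W → V) :
    W → Option W :=
  fun x => if h : ∃ y, F.Adj x y ∧ p (φ x) = some (φ y) then some h.choose else none

lemma orientOf_eq_some {V W : Type} (p : V → Option V) (F : SimpleGraph W) (φ : W → V)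
    (hφ : Function.Injective φ) (x y : W) :
    orientOf p F φ x = some y ↔ F.Adj x y ∧ p (φ x) = some (φ y) := by
  unfold orientOf
  constructor
  · intro h
    by_cases hex : ∃ y, F.Adj x y ∧ p (φ x) = some (φ y)
    · rw [dif_pos hex] at h
      have hy : hex.choose = y := Option.some.inj h
      rw [← hy]
      exact hex.choose_spec
    · rw [dif_neg hex] at h
      exact absurd h (by simp)
  · intro h
    have hex : ∃ y, F.Adj x y ∧ p (φ x) = some (φ y) := ⟨y, h⟩
    rw [dif_pos hex]
    have h1 := hex.choose_spec.2
    have h2 : φ y = φ hex.choose := Option.some.inj (h.2.symm.trans h1)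
    rw [hφ h2]

lemma orient_ncard_edgeSet {W : Type} [Fintype W] [DecidableEq W] (F : SimpleGraph W)
    [DecidableRel F.Adj] : F.edgeSet.ncard = F.edgeFinset.card := by
  rw [← Set.ncard_coe_finset, SimpleGraph.coe_edgeFinset]

theorem copy_le_sum_orient {V W : Type} [Fintype V] [Fintype W] [DecidableEq V] [DecidableEq W]
    (H : SimpleGraph V) (p : V → Option V)
    (hH : ∀ u v, H.Adj u v ↔ (p u = some v ∨ p v = some u))
    (hp2 : ∀ u v, p u = some v → p v ≠ some u) (F : SimpleGraph W) :
    ∃ O : Finset (W → Option W), O.card ≤ 4 ^ F.edgeSet.ncard ∧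
      (∀ o ∈ O, (univ.filter (fun x => o x ≠ none)).card = F.edgeSet.ncard) ∧
      Nat.card (F.Copy H) ≤ ∑ o ∈ O,
        Nat.card {φ : W → V // Function.Injective φ ∧
          ∀ x y, o x = some y → p (φ x) = some (φ y)} := by
  classical
  let O : Finset (W → Option W) := univ.filter (fun o => ∃ φ : F.Copy H, orientOf p F φ = o)
  have hO : ∀ o ∈ O, ∃ φ : F.Copy H, orientOf p F φ = o := by
    intro o ho
    exact (Finset.mem_filter.mp ho).2
  have hadj : ∀ o ∈ O, ∀ x y, o x = some y → F.Adj x y := by
    intro o ho x y hxy
    obtain ⟨φ, rfl⟩ := hO o ho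
    exact ((orientOf_eq_some p F φ φ.injective x y).mp hxy).1
  refine ⟨O, ?_, ?_, ?_⟩
  · have key : ∀ (o₁ o₂ : W → Option W), o₁ ∈ O →
        (univ.filter (fun d : F.Dart => o₁ d.fst = some d.snd) : Finset F.Dart) =
          univ.filter (fun d : F.Dart => o₂ d.fst = some d.snd) →
        ∀ x y, o₁ x = some y → o₂ x = some y := by
      intro o₁ o₂ h1 he x y hxy
      have hA := hadj o₁ h1 x y hxy
      have hm : (⟨(x, y), hA⟩ : F.Dart) ∈
          (univ.filter (fun d : F.Dart => o₁ d.fst = some d.snd) : Finset F.Dart) := by
        simp [hxy]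
      rw [he] at hm
      simpa using hm
    have hinj : Set.InjOn (fun o : W → Option W =>
        (univ.filter (fun d : F.Dart => o d.fst = some d.snd) : Finset F.Dart))
        (O : Set (W → Option W)) := by
      intro o ho o' ho' heq
      funext x
      cases hx : o x with
      | none =>
        cases hx' : o' x with
        | none => rfl
        | some y =>
          have h5 := key o' o (Finset.mem_coe.mp ho') heq.symm x y hx'
          rw [hx] at h5
          exact absurd h5 (by simp)
      | some y =>
        exact (key o o' (Finset.mem_coe.mp ho) heq x y hx).symm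
    have h1 : O.card ≤ (univ : Finset (Finset F.Dart)).card :=
      Finset.card_le_card_of_injOn _ (fun o _ => Finset.mem_univ _) hinj
    have h2 : (univ : Finset (Finset F.Dart)).card = 2 ^ Fintype.card F.Dart := by
      rw [Finset.card_univ, Fintype.card_finset]
    have h3 : Fintype.card F.Dart = 2 * F.edgeFinset.card := F.dart_card_eq_twice_card_edges
    rw [orient_ncard_edgeSet F]
    calc O.card ≤ 2 ^ (2 * F.edgeFinset.card) := by
          rw [← h3, ← h2]
          exact h1
      _ = 4 ^ F.edgeFinset.card := by
          rw [pow_mul]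
          norm_num
  · intro o ho
    obtain ⟨φ, rfl⟩ := hO o ho
    have hspec := orientOf_eq_some p F φ φ.injective
    rw [orient_ncard_edgeSet F]
    have himg : (univ.filter (fun x => orientOf p F φ x ≠ none)).image
        (fun x => s(x, (orientOf p F φ x).getD x)) = F.edgeFinset := by
      ext e
      simp only [Finset.mem_image, Finset.mem_filter, Finset.mem_univ, true_and,
        SimpleGraph.mem_edgeFinset]
      constructor
      · rintro ⟨x, hx, rfl⟩
        obtain ⟨y, hy⟩ := Option.ne_none_iff_exists'.mp hx
        rw [hy]
        simp only [Option.getD_some]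
        exact ((hspec x y).mp hy).1
      · intro he
        induction e using Sym2.ind with
        | _ x y =>
          have hA : F.Adj x y := he
          have hHA : H.Adj (φ x) (φ y) := φ.toHom.map_adj hA
          rcases (hH _ _).mp hHA with h | h
          · have h6 := (hspec x y).mpr ⟨hA, h⟩
            refine ⟨x, ?_, ?_⟩
            · rw [h6]
              simp
            · rw [h6]
              simp
          · have h6 := (hspec y x).mpr ⟨hA.symm, h⟩
            refine ⟨y, ?_, ?_⟩
            · rw [h6]
              simp
            · rw [h6]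
              simp [Sym2.eq_swap]
    rw [← himg]
    symm
    apply Finset.card_image_of_injOn
    intro x hx x' hx' heq
    have hx1 := (Finset.mem_filter.mp (Finset.mem_coe.mp hx)).2
    have hx1' := (Finset.mem_filter.mp (Finset.mem_coe.mp hx')).2
    obtain ⟨y, hy⟩ := Option.ne_none_iff_exists'.mp hx1
    obtain ⟨y', hy'⟩ := Option.ne_none_iff_exists'.mp hx1'
    simp only [hy, hy', Option.getD_some] at heq
    rcases Sym2.eq_iff.mp heq with ⟨h1, _⟩ | ⟨h1, h2⟩
    · exact h1
    · exfalso
      subst h1 h2
      exact hp2 _ _ ((hspec _ _).mp hy).2 ((hspec _ _).mp hy').2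
  · have hfin : ∀ o : O, Finite {φ : W → V // Function.Injective φ ∧
        ∀ x y, o.1 x = some y → p (φ x) = some (φ y)} := fun o => inferInstance
    let f : F.Copy H → Σ o : O, {φ : W → V // Function.Injective φ ∧
        ∀ x y, o.1 x = some y → p (φ x) = some (φ y)} := fun φ =>
      ⟨⟨orientOf p F φ, Finset.mem_filter.mpr ⟨Finset.mem_univ _, φ, rfl⟩⟩,
        ⟨⇑φ, φ.injective, fun x y h => ((orientOf_eq_some p F φ φ.injective x y).mp h).2⟩⟩
    have hf : Function.Injective f := by
      intro φ ψ h
      have h2 := congrArg (fun s : (Σ o : O, {φ : W → V // Function.Injective φ ∧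
        ∀ x y, o.1 x = some y → p (φ x) = some (φ y)}) => (s.2.1 : W → V)) h
      exact DFunLike.coe_injective h2
    have h7 := Nat.card_le_card_of_injective f hf
    rw [Nat.card_sigma] at h7
    calc Nat.card (F.Copy H) ≤ ∑ o : O, Nat.card {φ : W → V // Function.Injective φ ∧
            ∀ x y, o.1 x = some y → p (φ x) = some (φ y)} := h7
      _ = ∑ o ∈ O, Nat.card {φ : W → V // Function.Injective φ ∧
            ∀ x y, o x = some y → p (φ x) = some (φ y)} :=
          Finset.sum_coe_sort O (fun o => Nat.card {φ : W → V // Function.Injective φ ∧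
            ∀ x y, o x = some y → p (φ x) = some (φ y)})

end Vale.Agent.Lib.P064.PF
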