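import Mathlib
import Vale.Agent.KK.PF.Defs

/-!
# Splitting a pattern function into its tree part and its cyclic part
-/

open Finset

namespace Vale.Agent.Lib.P064.PF

lemma splitaux_iter_none {W : Type} (o : W → Option W) (k : ℕ) :
    (fun a : Option W => a.bind o)^[k] none = none := by
  induction k with
  | zero => rfl
  | succ k ih => rw [Function.iterate_succ_apply]; exact ih

lemma splitaux_iter_succ {W : Type} (o : W → Option W) {x y : W} (h : o x = some y) (k : ℕ) :
    (fun a : Option W => a.bind o)^[k + 1] (some x)
      = (fun a : Option W => a.bind o)^[k] (some y) := by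
  rw [Function.iterate_succ_apply]
  have : (some x).bind o = some y := by simpa using h
  rw [this]

theorem mor_split {W V : Type} [Fintype W] [DecidableEq W] [Fintype V] [DecidableEq V]
    (o : W → Option W) (p : V → Option V) :
    ∃ (S : Finset W) (ot : {x // x ∉ S} → Option {x // x ∉ S})
      (oc : {x // x ∈ S} → {x // x ∈ S}) (e : {x // x ∉ S} → ℕ),
      (∀ x y, ot x = some y → e x = e y + 1) ∧
      (univ.filter (fun x => o x ≠ none)).card =
        (univ.filter (fun x => ot x ≠ none)).card + S.card ∧
      Nat.card {φ : W → V // Function.Injective φ ∧ ∀ x y, o x = some y → p (φ x) = some (φ y)} ≤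
        Nat.card {φ : {x // x ∉ S} → V // Function.Injective φ ∧
            ∀ x y, ot x = some y → p (φ x) = some (φ y)} *
          Nat.card {φ : {x // x ∈ S} → V // Function.Injective φ ∧
            ∀ x, p (φ x) = some (φ (oc x))} := by
  classical
  -- the set of points whose orbit never dies
  set S : Finset W :=
    univ.filter (fun x => ∀ k, (fun a : Option W => a.bind o)^[k] (some x) ≠ none) with hS
  have memS : ∀ x, x ∈ S ↔ ∀ k, (fun a : Option W => a.bind o)^[k] (some x) ≠ none := by
    intro x; simp [hS]
  -- closure facts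
  have fact1 : ∀ x ∈ S, ∃ y ∈ S, o x = some y := by
    intro x hx
    have h1 := (memS x).1 hx 1
    have h1' : o x ≠ none := by simpa using h1
    obtain ⟨y, hy⟩ := Option.ne_none_iff_exists'.1 h1'
    refine ⟨y, (memS y).2 fun k => ?_, hy⟩
    rw [← splitaux_iter_succ o hy k]
    exact (memS x).1 hx (k + 1)
  have fact2 : ∀ x, x ∉ S → ∀ y, o x = some y → y ∉ S := by
    intro x hx y hy hyS
    apply hx
    rw [memS]
    intro k
    cases k with
    | zero => simp
    | succ k => rw [splitaux_iter_succ o hy k]; exact (memS y).1 hyS k
  have exk : ∀ x : {x // x ∉ S}, ∃ k, (fun a : Option W => a.bind o)^[k] (some x.1) = none := by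
    intro x
    by_contra hcon
    exact x.2 ((memS x.1).2 fun k hk => hcon ⟨k, hk⟩)
  -- the tree part
  have keyT : ∀ x : {x // x ∉ S}, ∃ r : Option {x // x ∉ S},
      ∀ y, r = some y ↔ o x.1 = some y.1 := by
    intro x
    cases h : o x.1 with
    | none => exact ⟨none, by simp⟩
    | some y =>
      refine ⟨some ⟨y, fact2 x.1 x.2 y h⟩, ?_⟩
      intro y'
      constructor
      · intro hh
        have := Option.some.inj hh
        rw [← this]
      · intro hh
        have := Option.some.inj hh
        congr 1
        exact Subtype.ext this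
  choose ot hot using keyT
  -- the cyclic part
  have keyC : ∀ x : {x // x ∈ S}, ∃ y : {x // x ∈ S}, o x.1 = some y.1 := by
    intro x
    obtain ⟨y, hyS, hy⟩ := fact1 x.1 x.2
    exact ⟨⟨y, hyS⟩, hy⟩
  choose oc hoc using keyC
  refine ⟨S, ot, oc, fun x => Nat.find (exk x), ?_, ?_, ?_⟩
  · -- depth
    intro x y hxy
    have hy : o x.1 = some y.1 := (hot x y).1 hxy
    rw [Nat.find_eq_iff]
    refine ⟨?_, ?_⟩
    · rw [splitaux_iter_succ o hy]
      exact Nat.find_spec (exk y)
    · intro m hm
      cases m with
      | zero => simp
      | succ m =>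
        rw [splitaux_iter_succ o hy]
        exact Nat.find_min (exk y) (Nat.lt_of_succ_lt_succ hm)
  · -- cardinalities
    have hsub : S ⊆ univ.filter (fun x => o x ≠ none) := by
      intro x hx
      obtain ⟨y, -, hy⟩ := fact1 x hx
      simp [hy]
    have h1 : (univ.filter (fun x => o x ≠ none)).filter (fun x => x ∈ S) = S := by
      ext x
      simp only [mem_filter, mem_univ, true_and]
      constructor
      · exact fun h => h.2
      · intro h
        have := hsub h
        simp only [mem_filter, mem_univ, true_and] at this
        exact ⟨this, h⟩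
    have h2 : ((univ.filter (fun x => o x ≠ none)).filter (fun x => ¬ x ∈ S)).card
        = (univ.filter (fun x : {x // x ∉ S} => ot x ≠ none)).card := by
      rw [← Finset.card_map (Function.Embedding.subtype (fun x => x ∉ S))]
      congr 1
      ext x
      simp only [mem_filter, mem_univ, true_and, mem_map, Function.Embedding.coe_subtype]
      constructor
      · rintro ⟨hx, hxS⟩
        refine ⟨⟨x, hxS⟩, ?_, rfl⟩
        obtain ⟨y, hy⟩ := Option.ne_none_iff_exists'.1 hx
        have hyS : y ∉ S := fact2 x hxS y hy
        have : ot ⟨x, hxS⟩ = some ⟨y, hyS⟩ := (hot ⟨x, hxS⟩ ⟨y, hyS⟩).2 hy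
        simp [this]
      · rintro ⟨x', hx', rfl⟩
        refine ⟨?_, x'.2⟩
        obtain ⟨y, hy⟩ := Option.ne_none_iff_exists'.1 hx'
        have := (hot x' y).1 hy
        simp [this]
    have h3 := Finset.card_filter_add_card_filter_not
      (s := univ.filter (fun x => o x ≠ none)) (fun x => x ∈ S)
    rw [h1, h2] at h3
    omega
  · -- counting
    let A := {φ : W → V // Function.Injective φ ∧ ∀ x y, o x = some y → p (φ x) = some (φ y)}
    let B := {φ : {x // x ∉ S} → V // Function.Injective φ ∧
            ∀ x y, ot x = some y → p (φ x) = some (φ y)}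
    let C := {φ : {x // x ∈ S} → V // Function.Injective φ ∧
            ∀ x, p (φ x) = some (φ (oc x))}
    let F : A → B × C := fun φ =>
      (⟨fun x => φ.1 x.1, φ.2.1.comp Subtype.val_injective,
          fun x y hxy => φ.2.2 x.1 y.1 ((hot x y).1 hxy)⟩,
       ⟨fun x => φ.1 x.1, φ.2.1.comp Subtype.val_injective,
          fun x => φ.2.2 x.1 (oc x).1 (hoc x)⟩)
    have hF : Function.Injective F := by
      intro φ φ' h
      apply Subtype.ext
      funext x
      have hB := congrArg (fun q : B × C => q.1.1) h
      have hC := congrArg (fun q : B × C => q.2.1) h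
      by_cases hx : x ∈ S
      · exact congrFun hC ⟨x, hx⟩
      · exact congrFun hB ⟨x, hx⟩
    have := Nat.card_le_card_of_injective F hF
    rwa [Nat.card_prod] at this

end Vale.Agent.Lib.P064.PF
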