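import Mathlib
import Vale.Agent.KK.PF.Defs
import Vale.Agent.Lib.P064.pf.Depth

/-!
# Cutting one point on every cycle of a partial function, keeping many footprints

`exists_cut`: if no footprint `S i` contains a nonempty set closed under the partial function `p`,
then there is a set `D` meeting every cycle of `p` (a depth function exists off `D`) such that at
least `∑ i, (1/2) ^ (S i).card` footprints are disjoint from `D`.

The proof is the method of conditional expectations: cut one cycle at a time, at a point chosen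
by averaging over the cycle.
-/

namespace Vale.Agent.Lib.P064.PF

open Finset Vale.Agent.KK Vale.Agent.KK.PF

section CutAux

variable {V : Type*}

theorem cut_tot_of_none {p : V → Option V} {u : V} (h : p u = none) : tot p u = u := by
  unfold tot
  rw [h]
  rfl

theorem cut_tot_of_some {p : V → Option V} {u w : V} (h : p u = some w) : tot p u = w := by
  unfold tot
  rw [h]
  rfl

theorem cut_tot_congr {p q : V → Option V} {u : V} (h : q u = p u) : tot q u = tot p u := by
  unfold tot
  rw [h]

/-- Along the orbit of a point on a cycle the partial function is defined everywhere. -/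
theorem cut_orbit_ne_none (p : V → Option V) {v : V} (hv : PerPt p v) (k : ℕ) :
    p ((tot p)^[k] v) ≠ none := by
  intro hnone
  have hfix : tot p ((tot p)^[k] v) = (tot p)^[k] v := cut_tot_of_none hnone
  obtain ⟨N, hNpos, hN⟩ := Function.mem_periodicPts.mp hv.2
  have hM : (tot p)^[N * k] v = v := hN.mul_const k
  have hle : k ≤ N * k := Nat.le_mul_of_pos_left k hNpos
  have hsplit : N * k = (N * k - k) + k := (Nat.sub_add_cancel hle).symm
  rw [hsplit, Function.iterate_add_apply, Function.iterate_fixed hfix] at hM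
  rw [hM] at hnone
  exact hv.1 hnone

open Classical in
/-- The set of points lying on a cycle of `p`. -/
noncomputable def cutPerSet [Fintype V] (p : V → Option V) : Finset V :=
  univ.filter (fun v => PerPt p v)

open Classical in
theorem mem_cutPerSet [Fintype V] {p : V → Option V} {v : V} :
    v ∈ cutPerSet p ↔ PerPt p v := by
  unfold cutPerSet
  simp

open Classical in
/-- The forward orbit of `v0` under the total extension of `p`. -/
noncomputable def cutOrb [Fintype V] (p : V → Option V) (v0 : V) : Finset V :=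
  univ.filter (fun y => ∃ k, (tot p)^[k] v0 = y)

open Classical in
theorem mem_cutOrb [Fintype V] {p : V → Option V} {v0 y : V} :
    y ∈ cutOrb p v0 ↔ ∃ k, (tot p)^[k] v0 = y := by
  unfold cutOrb
  simp

theorem cutOrb_subset [Fintype V] {p : V → Option V} {v0 : V} (hv : PerPt p v0) :
    cutOrb p v0 ⊆ cutPerSet p := by
  intro y hy
  obtain ⟨k, rfl⟩ := mem_cutOrb.mp hy
  obtain ⟨N, hNpos, hN⟩ := Function.mem_periodicPts.mp hv.2
  exact mem_cutPerSet.mpr ⟨cut_orbit_ne_none p hv k,
    Function.mk_mem_periodicPts hNpos (hN.apply_iterate k)⟩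

theorem cutOrb_closed [Fintype V] {p : V → Option V} {v0 : V} (hv : PerPt p v0) :
    ∀ v ∈ cutOrb p v0, ∃ w ∈ cutOrb p v0, p v = some w := by
  intro v hvY
  obtain ⟨k, rfl⟩ := mem_cutOrb.mp hvY
  obtain ⟨w, hw⟩ := Option.ne_none_iff_exists'.mp (cut_orbit_ne_none p hv k)
  refine ⟨w, mem_cutOrb.mpr ⟨k + 1, ?_⟩, hw⟩
  rw [Function.iterate_succ_apply']
  exact cut_tot_of_some hw

/-- Removing the value at a point of a cycle destroys that cycle and creates no new cycle. -/
theorem cutPerSet_update [Fintype V] [DecidableEq V] {p : V → Option V} {v0 y : V}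
    (hv : PerPt p v0) (hy : y ∈ cutOrb p v0) :
    cutPerSet (Function.update p y none) ⊆ cutPerSet p \ cutOrb p v0 := by
  intro v hvq
  have hq : PerPt (Function.update p y none) v := mem_cutPerSet.mp hvq
  have hqy : Function.update p y none y = none := Function.update_self y none p
  have c1 : ∀ k, (tot (Function.update p y none))^[k] v ≠ y := by
    intro k hk
    have h := cut_orbit_ne_none (Function.update p y none) hq k
    rw [hk] at h
    exact h hqy
  have c2 : ∀ k, (tot (Function.update p y none))^[k] v = (tot p)^[k] v := by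
    intro k
    induction k with
    | zero => rfl
    | succ k ih =>
      rw [Function.iterate_succ_apply', Function.iterate_succ_apply', ← ih]
      exact cut_tot_congr (Function.update_of_ne (c1 k) none p)
  have hvy : v ≠ y := c1 0
  have hpv : p v ≠ none := by
    have h1 := hq.1
    rwa [Function.update_of_ne hvy] at h1
  have hper : v ∈ Function.periodicPts (tot p) := by
    obtain ⟨N, hNpos, hN⟩ := Function.mem_periodicPts.mp hq.2
    have hN' : (tot (Function.update p y none))^[N] v = v := hN
    rw [c2 N] at hN'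
    exact Function.mk_mem_periodicPts hNpos hN'
  rw [Finset.mem_sdiff]
  refine ⟨mem_cutPerSet.mpr ⟨hpv, hper⟩, ?_⟩
  intro hvY
  obtain ⟨a, ha⟩ := mem_cutOrb.mp hvY
  obtain ⟨b, hb⟩ := mem_cutOrb.mp hy
  obtain ⟨N0, hN0pos, hN0⟩ := Function.mem_periodicPts.mp hv.2
  have hle : a ≤ N0 * a := Nat.le_mul_of_pos_left a hN0pos
  have hM : (tot p)^[N0 * a] v0 = v0 := hN0.mul_const a
  have h1 : (tot p)^[b + (N0 * a - a)] v = y := by
    rw [← ha, ← Function.iterate_add_apply]
    have hidx : b + (N0 * a - a) + a = b + N0 * a := by omega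
    rw [hidx, Function.iterate_add_apply, hM, hb]
  exact c1 (b + (N0 * a - a)) ((c2 _).trans h1)

theorem cut_num (g s : ℕ) (hs : s < g) : (g : ℝ) * ((1 : ℝ) / 2) ^ s ≤ (g : ℝ) - s := by
  have h2 : ((s : ℝ) + 1) ≤ (2 : ℝ) ^ s := by
    have h := Nat.lt_two_pow_self (n := s)
    exact_mod_cast h
  have hpos : (0 : ℝ) < (2 : ℝ) ^ s := by positivity
  have hsg : (s : ℝ) + 1 ≤ (g : ℝ) := by exact_mod_cast hs
  have hs0 : (0 : ℝ) ≤ (s : ℝ) := by positivity
  have h3 : (g : ℝ) ≤ ((g : ℝ) - s) * ((s : ℝ) + 1) := by nlinarith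
  have key : (g : ℝ) ≤ ((g : ℝ) - s) * (2 : ℝ) ^ s :=
    le_trans h3 (mul_le_mul_of_nonneg_left h2 (by linarith))
  rw [one_div, inv_pow, ← div_eq_mul_inv, div_le_iff₀ hpos]
  exact key

end CutAux

/-- Averaging over a cycle `Y`: some cut point keeps the expected number of footprints. -/
theorem cut_avg {V ι : Type} [Fintype V] [DecidableEq V] (S : ι → Finset V) (p : V → Option V)
    (I : Finset ι) (Y : Finset V) (hYsub : Y ⊆ cutPerSet p)
    (hlt : ∀ i, (S i ∩ Y).card < Y.card)
    (hupd : ∀ y ∈ Y, cutPerSet (Function.update p y none) ⊆ cutPerSet p \ Y) :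
    ∑ _y ∈ Y, ∑ i ∈ I, ((1 : ℝ) / 2) ^ (S i ∩ cutPerSet p).card ≤
      ∑ y ∈ Y, ∑ i ∈ I.filter (fun i => y ∉ S i),
        ((1 : ℝ) / 2) ^ (S i ∩ cutPerSet (Function.update p y none)).card := by
  have hms : ∀ i, (S i ∩ (cutPerSet p \ Y)).card + (S i ∩ Y).card =
      (S i ∩ cutPerSet p).card := by
    intro i
    have e : S i ∩ (cutPerSet p \ Y) = (S i ∩ cutPerSet p) \ (S i ∩ Y) := by
      ext j
      simp only [Finset.mem_inter, Finset.mem_sdiff]
      tauto
    rw [e]
    exact Finset.card_sdiff_add_card_eq_card (Finset.inter_subset_inter_left hYsub)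
  have hT : ∀ y ∈ Y,
      ∑ i ∈ I.filter (fun i => y ∉ S i), ((1 : ℝ) / 2) ^ (S i ∩ (cutPerSet p \ Y)).card ≤
        ∑ i ∈ I.filter (fun i => y ∉ S i),
          ((1 : ℝ) / 2) ^ (S i ∩ cutPerSet (Function.update p y none)).card := by
    intro y hyY
    apply Finset.sum_le_sum
    intro i _
    apply pow_le_pow_of_le_one (by norm_num) (by norm_num)
    exact Finset.card_le_card (Finset.inter_subset_inter_left (hupd y hyY))
  have hswap : ∑ y ∈ Y, ∑ i ∈ I.filter (fun i => y ∉ S i),
        ((1 : ℝ) / 2) ^ (S i ∩ (cutPerSet p \ Y)).card =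
      ∑ i ∈ I, ∑ _y ∈ Y.filter (fun y => y ∉ S i),
        ((1 : ℝ) / 2) ^ (S i ∩ (cutPerSet p \ Y)).card := by
    apply Finset.sum_comm'
    intro y i
    simp only [Finset.mem_filter]
    tauto
  have hcnt : ∀ i, ((Y.filter (fun y => y ∉ S i)).card : ℝ) =
      (Y.card : ℝ) - (S i ∩ Y).card := by
    intro i
    have h1 := Finset.card_filter_add_card_filter_not (s := Y) (fun y => y ∈ S i)
    have h2 : Y.filter (fun y => y ∈ S i) = S i ∩ Y := by
      ext j
      simp only [Finset.mem_filter, Finset.mem_inter]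
      tauto
    rw [h2] at h1
    have h3 : ((S i ∩ Y).card : ℝ) + ((Y.filter (fun y => y ∉ S i)).card : ℝ) =
        (Y.card : ℝ) := by exact_mod_cast h1
    linarith
  calc ∑ _y ∈ Y, ∑ i ∈ I, ((1 : ℝ) / 2) ^ (S i ∩ cutPerSet p).card
      = ∑ i ∈ I, (Y.card : ℝ) * ((1 : ℝ) / 2) ^ (S i ∩ cutPerSet p).card := by
        rw [Finset.sum_const, nsmul_eq_mul, Finset.mul_sum]
    _ ≤ ∑ i ∈ I, ∑ _y ∈ Y.filter (fun y => y ∉ S i),
          ((1 : ℝ) / 2) ^ (S i ∩ (cutPerSet p \ Y)).card := by
        apply Finset.sum_le_sum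
        intro i _
        rw [Finset.sum_const, nsmul_eq_mul, hcnt i, ← hms i, pow_add]
        have hnum := cut_num Y.card (S i ∩ Y).card (hlt i)
        have hpos : (0 : ℝ) ≤ ((1 : ℝ) / 2) ^ (S i ∩ (cutPerSet p \ Y)).card := by positivity
        nlinarith [mul_le_mul_of_nonneg_right hnum hpos]
    _ = ∑ y ∈ Y, ∑ i ∈ I.filter (fun i => y ∉ S i),
          ((1 : ℝ) / 2) ^ (S i ∩ (cutPerSet p \ Y)).card := hswap.symm
    _ ≤ ∑ y ∈ Y, ∑ i ∈ I.filter (fun i => y ∉ S i),
          ((1 : ℝ) / 2) ^ (S i ∩ cutPerSet (Function.update p y none)).card :=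
        Finset.sum_le_sum hT

theorem cut_base {V ι : Type} [Fintype V] [DecidableEq V] (S : ι → Finset V)
    (p : V → Option V) (hempty : cutPerSet p = ∅) (I : Finset ι) :
    ∃ (D : Finset V) (d : V → ℕ), (∀ u v, u ∉ D → p u = some v → d u = d v + 1) ∧
      ∑ i ∈ I, ((1 : ℝ) / 2) ^ (S i ∩ cutPerSet p).card ≤
        ((I.filter (fun i => Disjoint (S i) D)).card : ℝ) := by
  have hno : ∀ v, ¬ PerPt p v := by
    intro v hv
    have hmem : v ∈ cutPerSet p := mem_cutPerSet.mpr hv
    rw [hempty] at hmem
    exact Finset.notMem_empty v hmem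
  obtain ⟨d, hd⟩ := exists_depth p hno
  refine ⟨∅, d, fun u v _ h => hd u v h, ?_⟩
  rw [hempty]
  simp

theorem cut_aux {V ι : Type} [Fintype V] [DecidableEq V] (S : ι → Finset V) :
    ∀ (N : ℕ) (p : V → Option V), (cutPerSet p).card ≤ N →
      (∀ i, ∀ A : Finset V, A ⊆ S i → A.Nonempty → ∃ v ∈ A, ∀ w ∈ A, p v ≠ some w) →
      ∀ I : Finset ι, ∃ (D : Finset V) (d : V → ℕ),
        (∀ u v, u ∉ D → p u = some v → d u = d v + 1) ∧
        ∑ i ∈ I, ((1 : ℝ) / 2) ^ (S i ∩ cutPerSet p).card ≤
          ((I.filter (fun i => Disjoint (S i) D)).card : ℝ) := by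
  intro N
  induction N with
  | zero =>
    intro p hcard hS I
    exact cut_base S p (Finset.card_eq_zero.mp (Nat.le_zero.mp hcard)) I
  | succ N ih =>
    intro p hcard hS I
    by_cases hempty : cutPerSet p = ∅
    · exact cut_base S p hempty I
    · obtain ⟨v0, hv0⟩ := Finset.nonempty_iff_ne_empty.mpr hempty
      have hv0' : PerPt p v0 := mem_cutPerSet.mp hv0
      have hYne : (cutOrb p v0).Nonempty := ⟨v0, mem_cutOrb.mpr ⟨0, rfl⟩⟩
      have hYsub : cutOrb p v0 ⊆ cutPerSet p := cutOrb_subset hv0'
      have hYclosed := cutOrb_closed hv0'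
      have hlt : ∀ i, (S i ∩ cutOrb p v0).card < (cutOrb p v0).card := by
        intro i
        by_contra hge
        rw [not_lt] at hge
        have heq : S i ∩ cutOrb p v0 = cutOrb p v0 :=
          Finset.eq_of_subset_of_card_le Finset.inter_subset_right hge
        have hYS : cutOrb p v0 ⊆ S i := by
          rw [← heq]
          exact Finset.inter_subset_left
        obtain ⟨v, hvY, hv⟩ := hS i (cutOrb p v0) hYS hYne
        obtain ⟨w, hwY, hw⟩ := hYclosed v hvY
        exact hv w hwY hw
      obtain ⟨y, hyY, hy⟩ := Finset.exists_le_of_sum_le hYne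
        (cut_avg S p I (cutOrb p v0) hYsub hlt (fun y hy => cutPerSet_update hv0' hy))
      have hcard' : (cutPerSet (Function.update p y none)).card ≤ N := by
        have hsub := Finset.card_le_card (cutPerSet_update hv0' hyY)
        have hlt' : (cutPerSet p \ cutOrb p v0).card < (cutPerSet p).card :=
          Finset.card_lt_card (Finset.sdiff_ssubset hYsub hYne)
        omega
      have hS' : ∀ i, ∀ A : Finset V, A ⊆ S i → A.Nonempty →
          ∃ v ∈ A, ∀ w ∈ A, Function.update p y none v ≠ some w := by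
        intro i A hA hAne
        obtain ⟨v, hvA, hv⟩ := hS i A hA hAne
        refine ⟨v, hvA, fun w hw => ?_⟩
        by_cases hvy : v = y
        · rw [hvy, Function.update_self]
          exact (Option.some_ne_none w).symm
        · rw [Function.update_of_ne hvy]
          exact hv w hw
      obtain ⟨D', d, hd, hcount⟩ :=
        ih (Function.update p y none) hcard' hS' (I.filter (fun i => y ∉ S i))
      refine ⟨insert y D', d, ?_, ?_⟩
      · intro u v hu huv
        rw [Finset.mem_insert, not_or] at hu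
        apply hd u v hu.2
        rw [Function.update_of_ne hu.1]
        exact huv
      · have hfilter : I.filter (fun i => Disjoint (S i) (insert y D')) =
            (I.filter (fun i => y ∉ S i)).filter (fun i => Disjoint (S i) D') := by
          rw [Finset.filter_filter]
          apply Finset.filter_congr
          intro i _
          rw [Finset.disjoint_insert_right]
        rw [hfilter]
        exact le_trans hy hcount

theorem exists_cut {V ι : Type} [Fintype V] [DecidableEq V] [Fintype ι] (p : V → Option V)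
    (S : ι → Finset V)
    (hS : ∀ i, ∀ A : Finset V, A ⊆ S i → A.Nonempty → ∃ v ∈ A, ∀ w ∈ A, p v ≠ some w) :
    ∃ (D : Finset V) (d : V → ℕ), (∀ u v, u ∉ D → p u = some v → d u = d v + 1) ∧
      ∑ i, ((1 : ℝ) / 2) ^ (S i).card ≤ ((univ.filter (fun i => Disjoint (S i) D)).card : ℝ) := by
  obtain ⟨D, d, hd, hcount⟩ := cut_aux S (cutPerSet p).card p le_rfl hS univ
  refine ⟨D, d, hd, le_trans ?_ hcount⟩
  apply Finset.sum_le_sum
  intro i _
  apply pow_le_pow_of_le_one (by norm_num) (by norm_num)
  exact Finset.card_le_card Finset.inter_subset_left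

end Vale.Agent.Lib.P064.PF
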