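import Vale.Agent.KK.PP.ForestQ1
import Vale.Agent.KK.Orbit
import Vale.Agent.KK.PF.Defs
import Vale.Agent.Lib.P064.helper13.Rooting
import Vale.Agent.Lib.P064.pf.Cut
import Vale.Agent.Lib.P064.pf.FunGraph

namespace Vale.Agent.Lib.P064.PF

open Finset SimpleGraph Vale.Agent.KK Vale.Agent.KK.PF

/-- a footprint of an injective map respecting a pattern with a depth function contains no
nonempty set closed under the host map -/
theorem tp_footprint_no_closed {V T : Type} [Fintype T] [DecidableEq T] [DecidableEq V]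
    (p : V → Option V) (o : T → Option T) (e : T → ℕ)
    (he : ∀ x y, o x = some y → e x = e y + 1) (φ : T → V) (hφ : Function.Injective φ)
    (hφp : ∀ x y, o x = some y → p (φ x) = some (φ y))
    (A : Finset V) (hA : A ⊆ (univ.filter (fun x => o x ≠ none)).image φ) (hne : A.Nonempty) :
    ∃ v ∈ A, ∀ w ∈ A, p v ≠ some w := by
  by_contra hcon
  push Not at hcon
  set B : Finset T := univ.filter (fun x => φ x ∈ A) with hB
  have hBne : B.Nonempty := by
    obtain ⟨v, hv⟩ := hne
    obtain ⟨x, _, hx⟩ := Finset.mem_image.1 (hA hv)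
    exact ⟨x, by rw [hB, Finset.mem_filter]; exact ⟨Finset.mem_univ _, by rw [hx]; exact hv⟩⟩
  obtain ⟨x, hxB, hxmin⟩ := Finset.exists_min_image B e hBne
  have hxA : φ x ∈ A := (Finset.mem_filter.1 hxB).2
  obtain ⟨x', hx', hxx'⟩ := Finset.mem_image.1 (hA hxA)
  have hxeq : x' = x := hφ hxx'
  rw [hxeq] at hx'
  have hox : o x ≠ none := (Finset.mem_filter.1 hx').2
  obtain ⟨y, hy⟩ := Option.ne_none_iff_exists'.1 hox
  obtain ⟨w, hwA, hw⟩ := hcon (φ x) hxA
  have hwy : w = φ y := by
    have h1 := hφp x y hy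
    rw [hw] at h1
    exact Option.some.inj h1
  have hyB : y ∈ B := by
    rw [hB, Finset.mem_filter]
    exact ⟨Finset.mem_univ _, by rw [← hwy]; exact hwA⟩
  have h1 := hxmin y hyB
  have h2 := he x y hy
  omega

theorem tree_part {n : ℕ} {H : SimpleGraph (Fin n)} {q : ℝ} (hq : 0 ≤ q)
    (h : SubgraphsExpected n H q)
    (p : Fin n → Option (Fin n)) (hpH : ∀ x y, p x = some y → H.Adj x y)
    {T : Type} [Fintype T] [DecidableEq T] (o : T → Option T) (e : T → ℕ)
    (he : ∀ x y, o x = some y → e x = e y + 1) :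
    (Nat.card {φ : T → Fin n // Function.Injective φ ∧
        ∀ x y, o x = some y → p (φ x) = some (φ y)} : ℝ) ≤
      2 ^ (univ.filter (fun x => o x ≠ none)).card *
        (n.descFactorial (Fintype.card T) : ℝ) *
        (min 1 (100000000 * q)) ^ (univ.filter (fun x => o x ≠ none)).card := by
  classical
  set m : ℕ := (univ.filter (fun x => o x ≠ none)).card with hm
  let S : {φ : T → Fin n // Function.Injective φ ∧
      ∀ x y, o x = some y → p (φ x) = some (φ y)} → Finset (Fin n) :=
    fun φ => (univ.filter (fun x => o x ≠ none)).image φ.1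
  have hScard : ∀ φ, (S φ).card = m := fun φ => Finset.card_image_of_injective _ φ.2.1
  have hS : ∀ φ, ∀ A : Finset (Fin n), A ⊆ S φ → A.Nonempty →
      ∃ v ∈ A, ∀ w ∈ A, p v ≠ some w := fun φ A hA hne =>
    tp_footprint_no_closed p o e he φ.1 φ.2.1 φ.2.2 A hA hne
  obtain ⟨D, d, hd, hsum⟩ := exists_cut p S hS
  have hsum1 : ∑ φ, ((1 : ℝ) / 2) ^ (S φ).card =
      (Nat.card {φ : T → Fin n // Function.Injective φ ∧
        ∀ x y, o x = some y → p (φ x) = some (φ y)} : ℝ) * (1 / 2) ^ m := by
    rw [Finset.sum_congr rfl (fun φ _ => by rw [hScard φ]), Finset.sum_const, Finset.card_univ,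
      nsmul_eq_mul, Nat.card_eq_fintype_card]
  set pD : Fin n → Option (Fin n) := fun v => if v ∈ D then none else p v with hpD
  have hdD : ∀ u v, pD u = some v → d u = d v + 1 := by
    intro u v huv
    by_cases hu : u ∈ D
    · simp [hpD, hu] at huv
    · have : pD u = p u := by simp [hpD, hu]
      rw [this] at huv
      exact hd u v hu huv
  have hacyc : (SimpleGraph.fromRel (fun x y => pD x = some y)).IsAcyclic :=
    isAcyclic_fromRel_of_depth pD d hdD
  have hpDp : ∀ u v, pD u = some v → p u = some v := by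
    intro u v huv
    by_cases hu : u ∈ D
    · simp [hpD, hu] at huv
    · have : pD u = p u := by simp [hpD, hu]
      rw [← this]; exact huv
  have hle : SimpleGraph.fromRel (fun x y => pD x = some y) ≤ H := by
    intro x y hxy
    rw [SimpleGraph.fromRel_adj] at hxy
    rcases hxy.2 with h1 | h1
    · exact hpH x y (hpDp x y h1)
    · exact (hpH y x (hpDp y x h1)).symm
  have hexp : SubgraphsExpected n (SimpleGraph.fromRel (fun x y => pD x = some y)) q :=
    subgraphsExpected_mono hle h
  have hF : (SimpleGraph.fromRel (fun x y => o x = some y)).edgeSet.ncard = m :=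
    ncard_edgeSet_fromRel_par o e he
  have hmain := forestHost_labelled_le_min hacyc hq hexp T
    (SimpleGraph.fromRel (fun x y => o x = some y))
  rw [labelledCopyCount_eq_natCard, hF] at hmain
  have hinj : ((univ.filter (fun φ => Disjoint (S φ) D)).card : ℝ) ≤
      (Nat.card (Copy (SimpleGraph.fromRel (fun x y => o x = some y))
        (SimpleGraph.fromRel (fun x y => pD x = some y))) : ℝ) := by
    have hfin : Finite (Copy (SimpleGraph.fromRel (fun x y => o x = some y))
        (SimpleGraph.fromRel (fun x y => pD x = some y))) :=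
      Finite.of_injective (fun c : Copy (SimpleGraph.fromRel (fun x y => o x = some y))
        (SimpleGraph.fromRel (fun x y => pD x = some y)) => (c : T → Fin n))
        (fun c c' hcc => DFunLike.coe_injective hcc)
    have hcard : (univ.filter (fun φ => Disjoint (S φ) D)).card =
        Nat.card {φ // Disjoint (S φ) D} := by
      rw [Nat.card_eq_fintype_card, Fintype.card_subtype]
    rw [hcard]
    have hmap : ∀ φ : {φ // Disjoint (S φ) D}, ∀ x y,
        (SimpleGraph.fromRel (fun x y => o x = some y)).Adj x y →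
        (SimpleGraph.fromRel (fun x y => pD x = some y)).Adj (φ.1.1 x) (φ.1.1 y) := by
      intro φ x y hxy
      rw [SimpleGraph.fromRel_adj] at hxy ⊢
      have key : ∀ a b, o a = some b → pD (φ.1.1 a) = some (φ.1.1 b) := by
        intro a b hab
        have hmem : φ.1.1 a ∈ S φ.1 :=
          Finset.mem_image.2 ⟨a, by
            rw [Finset.mem_filter]; exact ⟨Finset.mem_univ _, by rw [hab]; simp⟩, rfl⟩
        have hnD : φ.1.1 a ∉ D := fun hD => (Finset.disjoint_left.1 φ.2 hmem) hD
        have : pD (φ.1.1 a) = p (φ.1.1 a) := by simp [hpD, hnD]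
        rw [this]
        exact φ.1.2.2 a b hab
      refine ⟨fun hne => hxy.1 (φ.1.2.1 hne), ?_⟩
      rcases hxy.2 with h1 | h1
      · exact Or.inl (key x y h1)
      · exact Or.inr (key y x h1)
    let g : {φ // Disjoint (S φ) D} → Copy (SimpleGraph.fromRel (fun x y => o x = some y))
        (SimpleGraph.fromRel (fun x y => pD x = some y)) :=
      fun φ => ⟨⟨φ.1.1, fun {x y} hxy => hmap φ x y hxy⟩, φ.1.2.1⟩
    have hg : Function.Injective g := by
      intro φ φ' hφ
      have h1 : (g φ : T → Fin n) = (g φ' : T → Fin n) := by rw [hφ]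
      exact Subtype.ext (Subtype.ext h1)
    exact_mod_cast Nat.card_le_card_of_injective g hg
  have hfinal : (Nat.card {φ : T → Fin n // Function.Injective φ ∧
        ∀ x y, o x = some y → p (φ x) = some (φ y)} : ℝ) * (1 / 2) ^ m ≤
      (n.descFactorial (Fintype.card T) : ℝ) * (min 1 (100000000 * q)) ^ m := by
    rw [← hsum1]
    exact le_trans hsum (le_trans hinj hmain)
  have h2 : (0 : ℝ) < (2 : ℝ) ^ m := by positivity
  have h3 : ((1 : ℝ) / 2) ^ m * 2 ^ m = 1 := by
    rw [← mul_pow]; norm_num
  calc (Nat.card {φ : T → Fin n // Function.Injective φ ∧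
        ∀ x y, o x = some y → p (φ x) = some (φ y)} : ℝ)
      = ((Nat.card {φ : T → Fin n // Function.Injective φ ∧
        ∀ x y, o x = some y → p (φ x) = some (φ y)} : ℝ) * (1 / 2) ^ m) * 2 ^ m := by
        rw [mul_assoc, h3, mul_one]
    _ ≤ ((n.descFactorial (Fintype.card T) : ℝ) * (min 1 (100000000 * q)) ^ m) * 2 ^ m :=
        mul_le_mul_of_nonneg_right hfinal h2.le
    _ = 2 ^ m * (n.descFactorial (Fintype.card T) : ℝ) * (min 1 (100000000 * q)) ^ m := by
        ring

end Vale.Agent.Lib.P064.PF
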