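import Vale.Agent.KK.PF.Defs
import Vale.Agent.KK.FH.Freq

/-!
# Frequency bound for cycles, from the class bound (core of job PF-6)
-/

namespace Vale.Agent.Lib.P064.PF

open Finset SimpleGraph Vale.Agent.KK Vale.Agent.KK.PF

section aux

variable {V : Type*}

theorem cf_tot_none {p : V → Option V} {v : V} (h : p v = none) : tot p v = v := by
  unfold tot
  rw [h]
  rfl

theorem cf_step_mem {p : V → Option V} {g : ℕ} (hg : 1 ≤ g) {w : V}
    (hw : p w ≠ none ∧ Function.minimalPeriod (tot p) w = g) :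
    p (tot p w) ≠ none ∧ Function.minimalPeriod (tot p) (tot p w) = g := by
  have hper : w ∈ Function.periodicPts (tot p) := by
    rw [← Function.minimalPeriod_pos_iff_mem_periodicPts, hw.2]
    omega
  have hit : (tot p)^[g] w = w := by
    rw [← hw.2]
    exact Function.iterate_minimalPeriod
  refine ⟨?_, ?_⟩
  · intro hnone
    have hfix : tot p (tot p w) = tot p w := cf_tot_none hnone
    obtain ⟨g', rfl⟩ : ∃ g', g = g' + 1 := ⟨g - 1, by omega⟩
    rw [Function.iterate_succ_apply, Function.iterate_fixed hfix] at hit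
    rw [hit] at hnone
    exact hw.1 hnone
  · rw [Function.minimalPeriod_apply hper]
    exact hw.2

theorem cf_sum_shift {p : V → Option V} {g : ℕ} {w : V} (hit : (tot p)^[g] w = w)
    (c : V → ℕ) :
    ∑ i ∈ range g, c ((tot p)^[i] (tot p w)) = ∑ i ∈ range g, c ((tot p)^[i] w) := by
  have h1 : ∑ i ∈ range (g + 1), c ((tot p)^[i] w) =
      ∑ i ∈ range g, c ((tot p)^[i] (tot p w)) + c w :=
    Finset.sum_range_succ' (fun i => c ((tot p)^[i] w)) g
  have h2 : ∑ i ∈ range (g + 1), c ((tot p)^[i] w) =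
      ∑ i ∈ range g, c ((tot p)^[i] w) + c ((tot p)^[g] w) :=
    Finset.sum_range_succ (fun i => c ((tot p)^[i] w)) g
  rw [hit] at h2
  omega

theorem cf_prod_shift {p : V → Option V} {g : ℕ} {w : V} (hit : (tot p)^[g] w = w)
    (c : V → ℕ) (hc : ∀ v, 0 < c v) :
    ∏ i ∈ range g, c ((tot p)^[i] (tot p w)) = ∏ i ∈ range g, c ((tot p)^[i] w) := by
  have h1 : ∏ i ∈ range (g + 1), c ((tot p)^[i] w) =
      (∏ i ∈ range g, c ((tot p)^[i] (tot p w))) * c w :=
    Finset.prod_range_succ' (fun i => c ((tot p)^[i] w)) g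
  have h2 : ∏ i ∈ range (g + 1), c ((tot p)^[i] w) =
      (∏ i ∈ range g, c ((tot p)^[i] w)) * c ((tot p)^[g] w) :=
    Finset.prod_range_succ (fun i => c ((tot p)^[i] w)) g
  rw [hit] at h2
  exact Nat.eq_of_mul_eq_mul_right (hc w) (h1.symm.trans h2)

end aux

section main

variable {n : ℕ} {q : ℝ}

/-- The total weight of the cycle points of period `g` whose patterns have `K` edges in all. -/
theorem cf_level_le (hq : 0 ≤ q)
    (p : Fin n → Option (Fin n)) (par : Fin n → Option (Fin n))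
    (E : Fin n → Finset (Fin n))
    (β : ℝ) (hβ : 0 < β) (P : Fin n → ℝ)
    (hP : ∀ v, P v = β ^ (E v).card * (patFac par E v : ℝ))
    (hβq : 32 * Real.exp 1 * n * q * β ≤ 1 / 2) (g : ℕ) (hg : 1 ≤ g)
    (hcls : ∀ (K j : ℕ) (C : Finset (Fin n)),
      (∀ w ∈ C, p w ≠ none ∧ Function.minimalPeriod (tot p) w = g) →
      (∀ w ∈ C, tot p w ∈ C) →
      (∀ w ∈ C, ∑ i ∈ range g, (E ((tot p)^[i] w)).card = K) →
      (∀ w ∈ C, 2 ^ j ≤ ∏ i ∈ range g, patFac par E ((tot p)^[i] w)) →
      (C.card : ℝ) * 2 ^ j ≤ g * (g + K) * (4 * Real.exp 1 * n * q) ^ (g + K))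
    (K : ℕ) :
    ∑ w ∈ (univ.filter (fun w => p w ≠ none ∧ Function.minimalPeriod (tot p) w = g)).filter
        (fun w => ∑ i ∈ range g, (E ((tot p)^[i] w)).card = K),
        ∏ i ∈ range g, P ((tot p)^[i] w)
      ≤ 2 * (g : ℝ) ^ 2 * (4 * Real.exp 1 * n * q) ^ g * (1 / 2) ^ K := by
  set S := (univ.filter (fun w => p w ≠ none ∧ Function.minimalPeriod (tot p) w = g)).filter
      (fun w => ∑ i ∈ range g, (E ((tot p)^[i] w)).card = K) with hS
  have hSmem : ∀ w ∈ S, (p w ≠ none ∧ Function.minimalPeriod (tot p) w = g) ∧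
      ∑ i ∈ range g, (E ((tot p)^[i] w)).card = K := by
    intro w hw
    rw [hS, mem_filter, mem_filter] at hw
    exact ⟨hw.1.2, hw.2⟩
  have hΦpos : ∀ w, 0 < ∏ i ∈ range g, patFac par E ((tot p)^[i] w) :=
    fun w => prod_pos (fun _ _ => patFac_pos _ _ _)
  have hprod : ∀ w, ∏ i ∈ range g, P ((tot p)^[i] w) =
      β ^ (∑ i ∈ range g, (E ((tot p)^[i] w)).card) *
        ((∏ i ∈ range g, patFac par E ((tot p)^[i] w) : ℕ) : ℝ) := by
    intro w
    simp only [hP]
    rw [Finset.prod_mul_distrib, Finset.prod_pow_eq_pow_sum]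
    push_cast
    rfl
  have hΦle : ∀ w ∈ S, ∏ i ∈ range g, patFac par E ((tot p)^[i] w) ≤ 2 ^ (K * K) := by
    intro w hw
    have hK := (hSmem w hw).2
    calc ∏ i ∈ range g, patFac par E ((tot p)^[i] w)
        ≤ ∏ i ∈ range g, 2 ^ ((E ((tot p)^[i] w)).card * (E ((tot p)^[i] w)).card) :=
          Finset.prod_le_prod' (fun i _ => patFac_le par E _)
      _ = 2 ^ (∑ i ∈ range g, (E ((tot p)^[i] w)).card * (E ((tot p)^[i] w)).card) :=
          Finset.prod_pow_eq_pow_sum _ _ _
      _ ≤ 2 ^ (K * K) := by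
          apply Nat.pow_le_pow_right (by norm_num)
          rw [← hK, Finset.sum_mul]
          apply Finset.sum_le_sum
          intro i hi
          apply Nat.mul_le_mul_left
          exact Finset.single_le_sum (f := fun i => (E ((tot p)^[i] w)).card)
            (fun _ _ => Nat.zero_le _) hi
  have hmaps : ∀ w ∈ S, Nat.log 2 (∏ i ∈ range g, patFac par E ((tot p)^[i] w)) ∈
      range (K * K + 1) := by
    intro w hw
    rw [mem_range]
    apply Nat.log_lt_of_lt_pow (hΦpos w).ne'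
    exact lt_of_le_of_lt (hΦle w hw) (Nat.pow_lt_pow_right (by norm_num) (by omega))
  rw [← sum_fiberwise_of_maps_to hmaps (fun w => ∏ i ∈ range g, P ((tot p)^[i] w))]
  set x : ℝ := 4 * Real.exp 1 * n * q with hx
  have hx0 : 0 ≤ x := by positivity
  have hgpos : (1 : ℝ) ≤ g := by exact_mod_cast hg
  have hfib : ∀ j ∈ range (K * K + 1),
      ∑ w ∈ S.filter (fun w => Nat.log 2 (∏ i ∈ range g, patFac par E ((tot p)^[i] w)) = j),
        ∏ i ∈ range g, P ((tot p)^[i] w) ≤ 2 * β ^ K * (g * (g + K) * x ^ (g + K)) := by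
    intro j _
    set C := S.filter
      (fun w => Nat.log 2 (∏ i ∈ range g, patFac par E ((tot p)^[i] w)) = j) with hC
    have hCmem : ∀ w ∈ C, w ∈ S ∧
        Nat.log 2 (∏ i ∈ range g, patFac par E ((tot p)^[i] w)) = j := by
      intro w hw
      rw [hC, mem_filter] at hw
      exact hw
    have hcard := hcls K j C
      (fun w hw => (hSmem w (hCmem w hw).1).1)
      (by
        intro w hw
        have h1 := hSmem w (hCmem w hw).1
        have hit : (tot p)^[g] w = w := by
          rw [← h1.1.2]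
          exact Function.iterate_minimalPeriod
        have h2 := cf_step_mem hg h1.1
        have h3 : ∑ i ∈ range g, (E ((tot p)^[i] (tot p w))).card = K := by
          rw [cf_sum_shift hit (fun v => (E v).card)]
          exact h1.2
        have h4 : ∏ i ∈ range g, patFac par E ((tot p)^[i] (tot p w)) =
            ∏ i ∈ range g, patFac par E ((tot p)^[i] w) :=
          cf_prod_shift hit (fun v => patFac par E v) (fun v => patFac_pos par E v)
        rw [hC, mem_filter, hS, mem_filter, mem_filter]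
        refine ⟨⟨⟨mem_univ _, h2⟩, h3⟩, ?_⟩
        rw [h4]
        exact (hCmem w hw).2)
      (fun w hw => (hSmem w (hCmem w hw).1).2)
      (by
        intro w hw
        rw [← (hCmem w hw).2]
        exact Nat.pow_log_le_self 2 (hΦpos w).ne')
    have hterm : ∀ w ∈ C, ∏ i ∈ range g, P ((tot p)^[i] w) ≤ β ^ K * 2 ^ (j + 1) := by
      intro w hw
      rw [hprod w, (hSmem w (hCmem w hw).1).2]
      apply mul_le_mul_of_nonneg_left _ (by positivity)
      have hlt : ∏ i ∈ range g, patFac par E ((tot p)^[i] w) < 2 ^ (j + 1) := by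
        rw [← (hCmem w hw).2]
        exact Nat.lt_pow_succ_log_self (by norm_num) _
      exact_mod_cast hlt.le
    calc ∑ w ∈ C, ∏ i ∈ range g, P ((tot p)^[i] w)
        ≤ ∑ _w ∈ C, β ^ K * 2 ^ (j + 1) := sum_le_sum hterm
      _ = 2 * β ^ K * ((C.card : ℝ) * 2 ^ j) := by
          rw [sum_const, nsmul_eq_mul, pow_succ]
          ring
      _ ≤ 2 * β ^ K * (g * (g + K) * x ^ (g + K)) :=
          mul_le_mul_of_nonneg_left hcard (by positivity)
  have hxβ : 8 * (x * β) ≤ 1 / 2 := by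
    have e : 8 * (x * β) = 32 * Real.exp 1 * n * q * β := by
      rw [hx]
      ring
    rw [e]
    exact hβq
  have hxβ0 : 0 ≤ x * β := by positivity
  calc ∑ j ∈ range (K * K + 1),
        ∑ w ∈ S.filter (fun w => Nat.log 2 (∏ i ∈ range g, patFac par E ((tot p)^[i] w)) = j),
          ∏ i ∈ range g, P ((tot p)^[i] w)
      ≤ ∑ _j ∈ range (K * K + 1), 2 * β ^ K * (g * (g + K) * x ^ (g + K)) :=
        sum_le_sum hfib
    _ = ((K * K + 1 : ℕ) : ℝ) * (2 * β ^ K * (g * (g + K) * x ^ (g + K))) := by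
        rw [sum_const, card_range, nsmul_eq_mul]
    _ ≤ ((K * K + 1 : ℕ) : ℝ) * (2 * β ^ K * (g * (g * ((K + 1 : ℕ) : ℝ)) * x ^ (g + K))) := by
        apply mul_le_mul_of_nonneg_left _ (by positivity)
        apply mul_le_mul_of_nonneg_left _ (by positivity)
        apply mul_le_mul_of_nonneg_right _ (by positivity)
        apply mul_le_mul_of_nonneg_left _ (by positivity)
        push_cast
        have hK0 : (0 : ℝ) ≤ K := Nat.cast_nonneg K
        nlinarith
    _ = 2 * (g : ℝ) ^ 2 * x ^ g * ((((K * K + 1) * (K + 1) : ℕ) : ℝ) * (x * β) ^ K) := by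
        rw [pow_add, mul_pow]
        push_cast
        ring
    _ ≤ 2 * (g : ℝ) ^ 2 * x ^ g * (8 ^ K * (x * β) ^ K) := by
        apply mul_le_mul_of_nonneg_left _ (by positivity)
        exact mul_le_mul_of_nonneg_right (poly_le_eight_pow K) (by positivity)
    _ = 2 * (g : ℝ) ^ 2 * x ^ g * (8 * (x * β)) ^ K := by
        rw [mul_pow 8 (x * β) K]
    _ ≤ 2 * (g : ℝ) ^ 2 * x ^ g * (1 / 2) ^ K := by
        apply mul_le_mul_of_nonneg_left _ (by positivity)
        exact pow_le_pow_left₀ (by positivity) hxβ K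

/-- The frequency bound for cycles, assuming the class bound. -/
theorem cyc_freq_of_class (hq : 0 ≤ q)
    (p : Fin n → Option (Fin n)) (par : Fin n → Option (Fin n))
    (E : Fin n → Finset (Fin n))
    (β : ℝ) (hβ : 0 < β) (P : Fin n → ℝ)
    (hP : ∀ v, P v = β ^ (E v).card * (patFac par E v : ℝ))
    (hβq : 32 * Real.exp 1 * n * q * β ≤ 1 / 2) (g : ℕ) (hg : 1 ≤ g)
    (hcls : ∀ (K j : ℕ) (C : Finset (Fin n)),
      (∀ w ∈ C, p w ≠ none ∧ Function.minimalPeriod (tot p) w = g) →
      (∀ w ∈ C, tot p w ∈ C) →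
      (∀ w ∈ C, ∑ i ∈ range g, (E ((tot p)^[i] w)).card = K) →
      (∀ w ∈ C, 2 ^ j ≤ ∏ i ∈ range g, patFac par E ((tot p)^[i] w)) →
      (C.card : ℝ) * 2 ^ j ≤ g * (g + K) * (4 * Real.exp 1 * n * q) ^ (g + K)) :
    ∑ w ∈ univ.filter (fun w => p w ≠ none ∧ Function.minimalPeriod (tot p) w = g),
        ∏ i ∈ range g, P ((tot p)^[i] w) ≤ 4 * (g : ℝ) ^ 2 * (4 * Real.exp 1 * n * q) ^ g := by
  have hmaps : ∀ w ∈ univ.filter
      (fun w => p w ≠ none ∧ Function.minimalPeriod (tot p) w = g),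
      ∑ i ∈ range g, (E ((tot p)^[i] w)).card ∈ range (g * n + 1) := by
    intro w _
    rw [mem_range]
    have h1 : ∑ i ∈ range g, (E ((tot p)^[i] w)).card ≤ ∑ _i ∈ range g, n := by
      apply Finset.sum_le_sum
      intro i _
      have := card_le_univ (E ((tot p)^[i] w))
      rw [Fintype.card_fin] at this
      exact this
    rw [sum_const, card_range, smul_eq_mul] at h1
    omega
  rw [← sum_fiberwise_of_maps_to hmaps (fun w => ∏ i ∈ range g, P ((tot p)^[i] w))]
  have hx0 : 0 ≤ 4 * Real.exp 1 * n * q := by positivity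
  calc ∑ K ∈ range (g * n + 1),
        ∑ w ∈ (univ.filter (fun w => p w ≠ none ∧ Function.minimalPeriod (tot p) w = g)).filter
          (fun w => ∑ i ∈ range g, (E ((tot p)^[i] w)).card = K),
          ∏ i ∈ range g, P ((tot p)^[i] w)
      ≤ ∑ K ∈ range (g * n + 1),
          2 * (g : ℝ) ^ 2 * (4 * Real.exp 1 * n * q) ^ g * (1 / 2) ^ K := by
        apply sum_le_sum
        intro K _
        exact cf_level_le hq p par E β hβ P hP hβq g hg hcls K
    _ = 2 * (g : ℝ) ^ 2 * (4 * Real.exp 1 * n * q) ^ g *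
          ∑ K ∈ range (g * n + 1), (1 / (2 : ℝ)) ^ K := by
        rw [mul_sum]
    _ ≤ 2 * (g : ℝ) ^ 2 * (4 * Real.exp 1 * n * q) ^ g * 2 :=
        mul_le_mul_of_nonneg_left (sum_geometric_two_le _) (by positivity)
    _ = 4 * (g : ℝ) ^ 2 * (4 * Real.exp 1 * n * q) ^ g := by ring

end main

end Vale.Agent.Lib.P064.PF
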