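import Mathlib
import Vale.Agent.Lib.P064.helper36.CopyCount

/-!
# P064 job PF2: embeddings of a rooted forest pattern with all root images prescribed
-/

namespace Vale.Agent.Lib.P064.PF

open Finset

section pinned

set_option linter.unusedSectionVars false

variable {V : Type*} [Fintype V] [DecidableEq V]

/-- Children of the image of `x` that are not images of children of `x`. -/
noncomputable def pinAvail {U : Type*} (par : V → Option V) (o : U → Option U) (φ : U → V)
    (x : U) : Finset V :=
  @Finset.filter V (fun z => ∀ y, o y = some x → φ y ≠ z) (Classical.decPred _)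
    (Finset.univ.filter (fun u => par u = some (φ x)))

/-- The potential of a map. -/
noncomputable def pinPsi (par : V → Option V) (a : ℝ) (Wt : V → ℝ) {U : Type*} [Fintype U]
    (o : U → Option U) (φ : U → V) : ℝ :=
  ∏ x, CC.Gs a Wt (pinAvail par o φ x)

/-- The parent map restricted to the complement of a point. -/
def pinRes {U : Type*} [DecidableEq U] (o : U → Option U) (w : U) (x : ({w}ᶜ : Set U)) :
    Option ({w}ᶜ : Set U) :=
  (o x.1).bind (fun y => if h : y = w then none else some ⟨y, h⟩)

theorem pinRes_eq_none {U : Type*} [DecidableEq U] (o : U → Option U) (w : U)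
    (hw : ∀ y, o y ≠ some w) (x : ({w}ᶜ : Set U)) :
    pinRes o w x = none ↔ o x.1 = none := by
  unfold pinRes
  cases h : o x.1 with
  | none => simp
  | some z =>
    have hz : z ≠ w := fun e => hw x.1 (e ▸ h)
    simp [hz]

theorem pinRes_eq_some {U : Type*} [DecidableEq U] (o : U → Option U) (w : U)
    (hw : ∀ y, o y ≠ some w) (x y : ({w}ᶜ : Set U)) :
    pinRes o w x = some y ↔ o x.1 = some y.1 := by
  unfold pinRes
  cases h : o x.1 with
  | none => simp
  | some z =>
    have hz : z ≠ w := fun e => hw x.1 (e ▸ h)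
    simp [hz, Subtype.ext_iff]

theorem pinAvail_subset {U : Type*} (par : V → Option V) (o : U → Option U) (φ : U → V)
    (x : U) : pinAvail par o φ x ⊆ Finset.univ.filter (fun u => par u = some (φ x)) := by
  intro z hz
  simp only [pinAvail, Finset.mem_filter] at hz
  simp only [Finset.mem_filter]
  exact hz.1

theorem pinPsi_one_le (par : V → Option V) (a : ℝ) (ha : 0 ≤ a) (Wt : V → ℝ)
    (hW : ∀ v, 0 ≤ Wt v) {U : Type*} [Fintype U] (o : U → Option U) (φ : U → V) :
    1 ≤ pinPsi par a Wt o φ := by
  unfold pinPsi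
  have h := Finset.prod_le_prod (s := (Finset.univ : Finset U)) (f := fun _ => (1 : ℝ))
    (g := fun x => CC.Gs a Wt (pinAvail par o φ x)) (fun _ _ => zero_le_one)
    (fun x _ => CC.Gs_one_le a ha Wt hW _)
  simpa using h

theorem pinAvail_restrict {U : Type*} [DecidableEq U] (par : V → Option V) (o : U → Option U)
    (w : U) (hw : ∀ y, o y ≠ some w) (φ : U → V) (x : ({w}ᶜ : Set U))
    (hx : o w ≠ some x.1) :
    pinAvail par o φ x.1 = pinAvail par (pinRes o w) (fun y => φ y.1) x := by
  classical
  ext z
  simp only [pinAvail, mem_filter, mem_univ, true_and]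
  constructor
  · rintro ⟨h1, h2⟩
    exact ⟨h1, fun y hy => h2 y.1 ((pinRes_eq_some o w hw y x).1 hy)⟩
  · rintro ⟨h1, h2⟩
    refine ⟨h1, fun y hy => ?_⟩
    have hyw : y ≠ w := by
      rintro rfl
      exact hx hy
    exact h2 ⟨y, hyw⟩ ((pinRes_eq_some o w hw ⟨y, hyw⟩ x).2 hy)

theorem pinAvail_restrict_erase {U : Type*} [DecidableEq U] (par : V → Option V)
    (o : U → Option U) (w : U) (hw : ∀ y, o y ≠ some w) (φ : U → V) (x : ({w}ᶜ : Set U))
    (hx : o w = some x.1) :
    pinAvail par o φ x.1 = (pinAvail par (pinRes o w) (fun y => φ y.1) x).erase (φ w) := by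
  classical
  ext z
  simp only [pinAvail, mem_filter, mem_univ, true_and, mem_erase]
  constructor
  · rintro ⟨h1, h2⟩
    exact ⟨fun h => h2 w hx h.symm, h1, fun y hy => h2 y.1 ((pinRes_eq_some o w hw y x).1 hy)⟩
  · rintro ⟨hz, h1, h2⟩
    refine ⟨h1, fun y hy => ?_⟩
    by_cases hyw : y = w
    · subst hyw
      exact fun h => hz h.symm
    · exact h2 ⟨y, hyw⟩ ((pinRes_eq_some o w hw ⟨y, hyw⟩ x).2 hy)

theorem pin_main (par : V → Option V) (a : ℝ) (ha : 0 < a) (Wt : V → ℝ)
    (hW0 : ∀ v, 0 ≤ Wt v)
    (hsup : ∀ v, ∑ A ∈ (univ.filter (fun u => par u = some v)).powerset,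
        (A.card.factorial : ℝ) * a ^ A.card * ∏ u ∈ A, Wt u ≤ Wt v) :
    ∀ (m : ℕ) (U : Type) [Fintype U] [DecidableEq U] (o : U → Option U) (e : U → ℕ),
      (∀ x y, o x = some y → e x = e y + 1) → ∀ (ρ : U → V),
      (univ.filter (fun x => o x ≠ none)).card = m →
      ∀ S : Finset (U → V), (∀ φ ∈ S, Function.Injective φ ∧
        (∀ x y, o x = some y → par (φ x) = some (φ y)) ∧ ∀ x, o x = none → φ x = ρ x) →
      ∑ φ ∈ S, pinPsi par a Wt o φ ≤
        (1 / a) ^ m * ∏ x ∈ univ.filter (fun x => o x = none), Wt (ρ x) := by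
  have hG0 : ∀ s : Finset V, 0 ≤ CC.Gs a Wt s :=
    fun s => le_trans zero_le_one (CC.Gs_one_le a ha.le Wt hW0 s)
  have hGle : ∀ (U : Type) (o : U → Option U) (φ : U → V) (x : U),
      CC.Gs a Wt (pinAvail par o φ x) ≤ Wt (φ x) := fun U o φ x =>
    le_trans (CC.Gs_mono a ha.le Wt hW0 (pinAvail_subset par o φ x)) (hsup (φ x))
  intro m
  induction m with
  | zero =>
    intro U _ _ o e he ρ hm S hS
    have hall : ∀ x, o x = none := by
      intro x
      by_contra hx
      have hmem : x ∈ univ.filter (fun x => o x ≠ none) := by simp [hx]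
      rw [Finset.card_eq_zero] at hm
      rw [hm] at hmem
      exact absurd hmem (notMem_empty _)
    have hfil : univ.filter (fun x => o x = none) = univ := by
      ext x; simp [hall x]
    rw [hfil, pow_zero, one_mul]
    have hφ : ∀ φ ∈ S, φ = ρ := fun φ h => funext fun x => (hS φ h).2.2 x (hall x)
    have hcard : S.card ≤ 1 :=
      Finset.card_le_one.2 (fun φ h ψ h' => (hφ φ h).trans (hφ ψ h').symm)
    have hprod0 : 0 ≤ ∏ x, Wt (ρ x) := Finset.prod_nonneg (fun x _ => hW0 _)
    calc ∑ φ ∈ S, pinPsi par a Wt o φ ≤ ∑ φ ∈ S, ∏ x, Wt (ρ x) := by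
          apply Finset.sum_le_sum
          intro φ h
          rw [hφ φ h]
          unfold pinPsi
          exact Finset.prod_le_prod (fun x _ => hG0 _) (fun x _ => hGle U o ρ x)
      _ = (S.card : ℝ) * ∏ x, Wt (ρ x) := by
          rw [Finset.sum_const, nsmul_eq_mul]
      _ ≤ 1 * ∏ x, Wt (ρ x) :=
          mul_le_mul_of_nonneg_right (by exact_mod_cast hcard) hprod0
      _ = ∏ x, Wt (ρ x) := one_mul _
  | succ m ih =>
    intro U _ _ o e he ρ hm S hS
    classical
    have ha' : 0 ≤ 1 / a := by positivity
    have hne : (univ.filter (fun x => o x ≠ none)).Nonempty := by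
      rw [← Finset.card_pos]; omega
    obtain ⟨w, hwmem, hwmax⟩ := Finset.exists_max_image _ e hne
    have hwnr : o w ≠ none := (mem_filter.1 hwmem).2
    obtain ⟨x0, hx0⟩ := Option.ne_none_iff_exists'.1 hwnr
    have hnoch : ∀ y, o y ≠ some w := by
      intro y hy
      have h1 := hwmax y (by simp [hy])
      have h2 := he y w hy
      omega
    have hx0w : x0 ≠ w := by
      rintro rfl
      have := he _ _ hx0
      omega
    set o' := pinRes o w with ho'
    set x0' : ({w}ᶜ : Set U) := ⟨x0, hx0w⟩ with hx0'
    have hcard' : (univ.filter (fun x : ({w}ᶜ : Set U) => o' x ≠ none)).card = m := by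
      have hmap : (univ.filter (fun x : ({w}ᶜ : Set U) => o' x ≠ none)).map
          ⟨Subtype.val, Subtype.val_injective⟩ = (univ.filter (fun x => o x ≠ none)).erase w := by
        ext x
        simp only [mem_map, mem_filter, mem_univ, true_and, Function.Embedding.coeFn_mk,
          mem_erase]
        constructor
        · rintro ⟨x', hx', rfl⟩
          exact ⟨x'.2, fun h => hx' ((pinRes_eq_none o w hnoch x').2 h)⟩
        · rintro ⟨hxw, hx⟩
          exact ⟨⟨x, hxw⟩, fun h => hx ((pinRes_eq_none o w hnoch ⟨x, hxw⟩).1 h), rfl⟩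
      rw [← Finset.card_map, hmap, Finset.card_erase_of_mem hwmem, hm]
      rfl
    have hroots : ∏ x ∈ univ.filter (fun x => o x = none), Wt (ρ x)
        = ∏ x ∈ univ.filter (fun x : ({w}ᶜ : Set U) => o' x = none), Wt (ρ x.1) := by
      have hmap : (univ.filter (fun x : ({w}ᶜ : Set U) => o' x = none)).map
          ⟨Subtype.val, Subtype.val_injective⟩ = univ.filter (fun x => o x = none) := by
        ext x
        simp only [mem_map, mem_filter, mem_univ, true_and, Function.Embedding.coeFn_mk]
        constructor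
        · rintro ⟨x', hx', rfl⟩
          exact (pinRes_eq_none o w hnoch x').1 hx'
        · intro hx
          have hxw : x ≠ w := by
            rintro rfl
            exact hwnr hx
          exact ⟨⟨x, hxw⟩, (pinRes_eq_none o w hnoch ⟨x, hxw⟩).2 hx, rfl⟩
      rw [← hmap, Finset.prod_map]
      rfl
    have he' : ∀ x y : ({w}ᶜ : Set U), o' x = some y → e x.1 = e y.1 + 1 :=
      fun x y h => he _ _ ((pinRes_eq_some o w hnoch x y).1 h)
    set res : (U → V) → (({w}ᶜ : Set U) → V) := fun φ x => φ x.1 with hres
    have key := ih ({w}ᶜ : Set U) o' (fun x => e x.1) he' (fun x => ρ x.1) hcard'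
      (S.image res) (by
        intro φ' hφ'
        obtain ⟨φ, hφ, rfl⟩ := mem_image.1 hφ'
        obtain ⟨hinj, hpar, hroot⟩ := hS φ hφ
        refine ⟨fun x y hxy => Subtype.ext (hinj hxy), ?_, ?_⟩
        · intro x y hxy
          exact hpar _ _ ((pinRes_eq_some o w hnoch x y).1 hxy)
        · intro x hx
          exact hroot _ ((pinRes_eq_none o w hnoch x).1 hx))
    rw [← hroots] at key
    have hPsi : ∀ φ : U → V, pinPsi par a Wt o φ =
        CC.Gs a Wt (pinAvail par o φ w) *
          ∏ x : ({w}ᶜ : Set U), CC.Gs a Wt (pinAvail par o φ x.1) :=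
      fun φ => CC.prod_split w _
    set hfun : (({w}ᶜ : Set U) → V) × V → ℝ := fun p =>
      (∏ x ∈ (univ : Finset ({w}ᶜ : Set U)).erase x0', CC.Gs a Wt (pinAvail par o' p.1 x)) *
        (Wt p.2 * CC.Gs a Wt ((pinAvail par o' p.1 x0').erase p.2)) with hhfun
    have hprod0 : ∀ φ' : ({w}ᶜ : Set U) → V,
        0 ≤ ∏ x ∈ (univ : Finset ({w}ᶜ : Set U)).erase x0',
          CC.Gs a Wt (pinAvail par o' φ' x) :=
      fun φ' => Finset.prod_nonneg (fun x _ => hG0 _)
    have hιinj : Function.Injective (fun φ : U → V => (res φ, φ w)) := by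
      intro φ ψ h
      have h1 : res φ = res ψ := congrArg Prod.fst h
      have h2 : φ w = ψ w := congrArg Prod.snd h
      funext x
      by_cases hxw : x = w
      · rw [hxw]; exact h2
      · exact congrFun h1 ⟨x, hxw⟩
    calc ∑ φ ∈ S, pinPsi par a Wt o φ
        ≤ ∑ p ∈ ((S.image res) ×ˢ (univ : Finset V)).filter
            (fun p => p.2 ∈ pinAvail par o' p.1 x0'), hfun p := by
          apply CC.sum_le_sum_of_inj S _ (fun φ : U → V => (res φ, φ w)) hιinj
          · intro φ hφ
            obtain ⟨hinj, hpar, hroot⟩ := hS φ hφ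
            rw [mem_filter, mem_product]
            refine ⟨⟨mem_image_of_mem _ hφ, mem_univ _⟩, ?_⟩
            simp only [pinAvail, mem_filter, mem_univ, true_and]
            refine ⟨hpar w x0 hx0, fun y _ hy => ?_⟩
            exact y.2 (hinj hy)
          · intro φ hφ
            have h1 : ∏ x : ({w}ᶜ : Set U), CC.Gs a Wt (pinAvail par o φ x.1) =
                CC.Gs a Wt (pinAvail par o φ x0) *
                  ∏ x ∈ (univ : Finset ({w}ᶜ : Set U)).erase x0',
                    CC.Gs a Wt (pinAvail par o φ x.1) := by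
              rw [← Finset.mul_prod_erase univ _ (mem_univ x0')]
            have h2 : ∏ x ∈ (univ : Finset ({w}ᶜ : Set U)).erase x0',
                  CC.Gs a Wt (pinAvail par o φ x.1) =
                ∏ x ∈ (univ : Finset ({w}ᶜ : Set U)).erase x0',
                  CC.Gs a Wt (pinAvail par o' (res φ) x) := by
              apply Finset.prod_congr rfl
              intro x hx
              have hxu : x ≠ x0' := (mem_erase.1 hx).1
              have hnp : o w ≠ some x.1 := by
                intro h
                rw [hx0] at h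
                exact hxu (Subtype.ext (Option.some.inj h).symm)
              rw [pinAvail_restrict par o w hnoch φ x hnp]
            have h3 : pinAvail par o φ x0 = (pinAvail par o' (res φ) x0').erase (φ w) :=
              pinAvail_restrict_erase par o w hnoch φ x0' hx0
            rw [hPsi φ, h1, h2, h3]
            have h4 := hGle U o φ w
            have h5 := hprod0 (res φ)
            have h6 := hG0 ((pinAvail par o' (res φ) x0').erase (φ w))
            calc CC.Gs a Wt (pinAvail par o φ w) *
                  (CC.Gs a Wt ((pinAvail par o' (res φ) x0').erase (φ w)) *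
                    ∏ x ∈ (univ : Finset ({w}ᶜ : Set U)).erase x0',
                      CC.Gs a Wt (pinAvail par o' (res φ) x))
                ≤ Wt (φ w) *
                  (CC.Gs a Wt ((pinAvail par o' (res φ) x0').erase (φ w)) *
                    ∏ x ∈ (univ : Finset ({w}ᶜ : Set U)).erase x0',
                      CC.Gs a Wt (pinAvail par o' (res φ) x)) :=
                  mul_le_mul_of_nonneg_right h4 (mul_nonneg h6 h5)
              _ = hfun (res φ, φ w) := by
                  rw [hhfun]
                  ring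
          · intro p _
            exact mul_nonneg (hprod0 _) (mul_nonneg (hW0 _) (hG0 _))
      _ = ∑ φ' ∈ S.image res, ∑ z ∈ pinAvail par o' φ' x0', hfun (φ', z) := by
          rw [Finset.sum_filter, Finset.sum_product]
          apply Finset.sum_congr rfl
          intro φ' _
          rw [← Finset.sum_filter]
          congr 1
          ext z
          simp
      _ ≤ ∑ φ' ∈ S.image res, (1 / a) * pinPsi par a Wt o' φ' := by
          apply Finset.sum_le_sum
          intro φ' _
          have h1 : ∑ z ∈ pinAvail par o' φ' x0', hfun (φ', z) =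
              (∏ x ∈ (univ : Finset ({w}ᶜ : Set U)).erase x0',
                  CC.Gs a Wt (pinAvail par o' φ' x)) *
                ∑ z ∈ pinAvail par o' φ' x0',
                  Wt z * CC.Gs a Wt ((pinAvail par o' φ' x0').erase z) := by
            rw [Finset.mul_sum]
          have h2 : pinPsi par a Wt o' φ' = CC.Gs a Wt (pinAvail par o' φ' x0') *
              ∏ x ∈ (univ : Finset ({w}ᶜ : Set U)).erase x0',
                CC.Gs a Wt (pinAvail par o' φ' x) := by
            unfold pinPsi
            rw [← Finset.mul_prod_erase univ _ (mem_univ x0')]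
          rw [h1, h2]
          have h3 := CC.Gs_step a ha Wt hW0 (pinAvail par o' φ' x0')
          calc (∏ x ∈ (univ : Finset ({w}ᶜ : Set U)).erase x0',
                  CC.Gs a Wt (pinAvail par o' φ' x)) *
                ∑ z ∈ pinAvail par o' φ' x0',
                  Wt z * CC.Gs a Wt ((pinAvail par o' φ' x0').erase z)
              ≤ (∏ x ∈ (univ : Finset ({w}ᶜ : Set U)).erase x0',
                  CC.Gs a Wt (pinAvail par o' φ' x)) *
                ((1 / a) * CC.Gs a Wt (pinAvail par o' φ' x0')) :=
                mul_le_mul_of_nonneg_left h3 (hprod0 φ')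
            _ = _ := by ring
      _ = (1 / a) * ∑ φ' ∈ S.image res, pinPsi par a Wt o' φ' := by
          rw [Finset.mul_sum]
      _ ≤ (1 / a) * ((1 / a) ^ m * ∏ x ∈ univ.filter (fun x => o x = none), Wt (ρ x)) :=
          mul_le_mul_of_nonneg_left key ha'
      _ = (1 / a) ^ (m + 1) * ∏ x ∈ univ.filter (fun x => o x = none), Wt (ρ x) := by
          rw [pow_succ]
          ring

end pinned

theorem pinned_count {V : Type*} [Fintype V] [DecidableEq V] (par : V → Option V)
    (a : ℝ) (ha : 0 < a) (Wt : V → ℝ) (hW0 : ∀ v, 0 ≤ Wt v)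
    (hsup : ∀ v, ∑ A ∈ (univ.filter (fun u => par u = some v)).powerset,
        (A.card.factorial : ℝ) * a ^ A.card * ∏ u ∈ A, Wt u ≤ Wt v)
    {U : Type} [Fintype U] [DecidableEq U] (o : U → Option U) (e : U → ℕ)
    (he : ∀ x y, o x = some y → e x = e y + 1) (ρ : U → V) :
    (Nat.card {φ : U → V // Function.Injective φ ∧
        (∀ x y, o x = some y → par (φ x) = some (φ y)) ∧ ∀ x, o x = none → φ x = ρ x} : ℝ) ≤
      (1 / a) ^ (univ.filter (fun x => o x ≠ none)).card *
        ∏ x ∈ univ.filter (fun x => o x = none), Wt (ρ x) := by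
  classical
  have hmain := pin_main par a ha Wt hW0 hsup (univ.filter (fun x => o x ≠ none)).card U o e he ρ
    rfl (univ.filter (fun φ : U → V => Function.Injective φ ∧
        (∀ x y, o x = some y → par (φ x) = some (φ y)) ∧ ∀ x, o x = none → φ x = ρ x))
    (fun φ hφ => (mem_filter.1 hφ).2)
  rw [Nat.card_eq_fintype_card, Fintype.card_subtype]
  calc (((univ.filter (fun φ : U → V => Function.Injective φ ∧
        (∀ x y, o x = some y → par (φ x) = some (φ y)) ∧ ∀ x, o x = none → φ x = ρ x)).card : ℕ) : ℝ)
      = ∑ φ ∈ univ.filter (fun φ : U → V => Function.Injective φ ∧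
        (∀ x y, o x = some y → par (φ x) = some (φ y)) ∧ ∀ x, o x = none → φ x = ρ x), (1 : ℝ) := by
        simp
    _ ≤ ∑ φ ∈ univ.filter (fun φ : U → V => Function.Injective φ ∧
        (∀ x y, o x = some y → par (φ x) = some (φ y)) ∧ ∀ x, o x = none → φ x = ρ x),
          pinPsi par a Wt o φ :=
        Finset.sum_le_sum (fun φ _ => pinPsi_one_le par a ha.le Wt hW0 o φ)
    _ ≤ _ := hmain

end Vale.Agent.Lib.P064.PF
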